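import Vale.Agent.P141.H210.Shift

/-!
# P141, line (A): translated grids, restriction to the root and own energies

* `rst N R S A`: the path on the root, zero off it; `path_rst`, `pack_rst`: all roots from one;
* `own_sh`, `pwr_sh`: own energies of a translated path, summed over `x₀`, from block bounds;
* `own_pth_sh`: the instance for the gauged path `pth`.
-/

namespace Vale.Agent.P141.H210

open Finset Vale.Agent.P141.PL
open Vale.Agent.P141.PL.H315 (A2 avg avg_nonneg)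
open Vale.Agent.P141.H958 (Aff PackQ s4 s4_nonneg pwr sum_Aff mem_Aff)
open Vale.Agent.P141.H736 (Path sqb sqQ sqb_nonneg)
open Vale.Agent.P141.H48

noncomputable section

open scoped Classical

/-! ### Restriction to the root -/

/-- the path on the root, zero off it -/
def rst (N : ℕ) (R S : ℤ) (A : ℕ → ℤ → ℤ → ℝ) (k : ℕ) (x y : ℤ) : ℝ :=
  if ix N x = R ∧ ix N y = S then A k x y else 0

/-- the affected squares of the root -/
def Qr (N : ℕ) (R S : ℤ) (Q : ℕ → ℤ → ℤ → Prop) (k : ℕ) (n m : ℤ) : Prop :=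
  k < N ∧ ix (N - k) n = R ∧ ix (N - k) m = S ∧ Q k n m

theorem ix_root {N k : ℕ} (hk : k ≤ N) {x n : ℤ} (hx : x ∈ iv k n) : ix N x = ix (N - k) n := by
  rw [← mem_iv.1 hx, ix_ix]
  congr 1
  omega

theorem path_rst {N : ℕ} {R S : ℤ} {Q : ℕ → ℤ → ℤ → Prop} {A : ℕ → ℤ → ℤ → ℝ}
    (h : Path N R S Q A) (R' S' : ℤ) : Path N R' S' (Qr N R S Q) (rst N R S A) := by
  intro k hk n _ m _ hq x hx y hy
  unfold rst
  rw [ix_root hk.le hx, ix_root hk.le hy]
  by_cases hr : ix (N - k) n = R ∧ ix (N - k) m = S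
  · rw [if_pos hr, if_pos hr]
    exact h k hk n (mem_iv.2 hr.1) m (mem_iv.2 hr.2) (fun hQ => hq ⟨hk, hr.1, hr.2, hQ⟩) x hx y hy
  · rw [if_neg hr, if_neg hr]

/-- sum over the affected squares inside a square, from below -/
theorem le_aff_filter {N K : ℕ} {R S : ℤ} (Q : ℕ → ℤ → ℤ → Prop) (n' m' : ℤ) :
    ∑ k ∈ range (K + 1), ∑ r ∈ iv (K - k) n', ∑ s ∈ iv (K - k) m',
      (if Qr N R S Q k r s then (4 : ℝ) ^ k else 0) ≤
    ∑ i ∈ (Aff N R S Q).filter (fun i => i.1 ≤ K ∧ ix (K - i.1) i.2.1 = n' ∧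
      ix (K - i.1) i.2.2 = m'), (4 : ℝ) ^ i.1 := by
  set W : Finset (ℕ × ℤ × ℤ) := (range (K + 1)).biUnion fun k =>
    ((iv (K - k) n' ×ˢ iv (K - k) m').filter fun q => Qr N R S Q k q.1 q.2).image
      fun q => (k, q) with hW
  have e : ∑ k ∈ range (K + 1), ∑ r ∈ iv (K - k) n', ∑ s ∈ iv (K - k) m',
      (if Qr N R S Q k r s then (4 : ℝ) ^ k else 0) = ∑ i ∈ W, (4 : ℝ) ^ i.1 := by
    rw [hW, sum_biUnion]
    · refine sum_congr rfl fun k _ => ?_
      rw [sum_image, sum_filter, sum_product]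
      intro a _ b _ h
      exact (Prod.mk.inj h).2
    · intro k _ l _ hkl
      rw [Function.onFun, disjoint_left]
      intro i hi hi'
      rw [mem_image] at hi hi'
      obtain ⟨a, _, rfl⟩ := hi
      obtain ⟨b, _, hb⟩ := hi'
      exact hkl (Prod.mk.inj hb).1.symm
  rw [e]
  refine sum_le_sum_of_subset_of_nonneg ?_ fun i _ _ => by positivity
  intro i hi
  rw [hW, mem_biUnion] at hi
  obtain ⟨k, hk, hi⟩ := hi
  rw [mem_image] at hi
  obtain ⟨q, hq, rfl⟩ := hi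
  obtain ⟨hq1, hq2, hq3, hq4, hq5⟩ := mem_filter.1 hq
  obtain ⟨hq6, hq7⟩ := mem_product.1 hq1
  rw [mem_filter, mem_Aff]
  refine ⟨⟨hq2, mem_iv.2 hq3, mem_iv.2 hq4, hq5⟩, ?_, mem_iv.1 hq6, mem_iv.1 hq7⟩
  rw [mem_range] at hk
  show k ≤ K
  omega

theorem pack_rst {N : ℕ} {R S : ℤ} {Q : ℕ → ℤ → ℤ → Prop} {cP : ℝ} (h : PackQ N R S Q cP) :
    PackS N (Qr N R S Q) cP := fun K hK n' m' => (le_aff_filter Q n' m').trans (h K hK n' m')

/-- **Translated restriction of a path**: path and packing at every root. -/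
theorem path_tr {N : ℕ} {R S : ℤ} {Q : ℕ → ℤ → ℤ → Prop} {A : ℕ → ℤ → ℤ → ℝ}
    (h : Path N R S Q A) (a b R' S' : ℤ) :
    Path N R' S' (Qsh a b (Qr N R S Q)) (shf a b (rst N R S A)) :=
  path_sh (fun I J => path_rst h I J) a b R' S'

theorem pack_tr {N : ℕ} {R S : ℤ} {Q : ℕ → ℤ → ℤ → Prop} {cP : ℝ} (h : PackQ N R S Q cP)
    (a b R' S' : ℤ) : PackQ N R' S' (Qsh a b (Qr N R S Q)) (16 * cP) :=
  pack_sh (pack_rst h) a b R' S'

/-! ### Energies summed over `x₀` -/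

section energies

variable {N : ℕ} {Qc : ℕ → Pt → Prop} {A : ℤ → ℕ → ℤ → ℤ → ℝ} {cP μ : ℝ}

/-- sum over the slices of the blocks of a translated square -/
theorem block_sh (a b : ℤ) {k : ℕ}
    (hb : ∀ q0 i j : ℤ, ∑ x0 ∈ iv k q0, s4 k k (A x0 (k + 1)) i j ≤ 2 ^ k * μ) (q0 n m : ℤ) :
    ∑ x0 ∈ iv k q0, s4 k k (shf a b (A x0) (k + 1)) n m ≤ 2 ^ k * (256 * μ) := by
  have h1 : ∀ x0 ∈ iv k q0, s4 k k (shf a b (A x0) (k + 1)) n m ≤
      64 * ∑ i ∈ two (n + ix k a), ∑ j ∈ two (m + ix k b), s4 k k (A x0 (k + 1)) i j :=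
    fun x0 _ => s4_sh k a b (A x0 (k + 1)) n m
  refine (sum_le_sum h1).trans ?_
  rw [← mul_sum]
  simp only [sum_two, sum_add_distrib]
  have g1 := hb q0 (n + ix k a) (m + ix k b)
  have g2 := hb q0 (n + ix k a) (m + ix k b + 1)
  have g3 := hb q0 (n + ix k a + 1) (m + ix k b)
  have g4 := hb q0 (n + ix k a + 1) (m + ix k b + 1)
  linarith

theorem sqblock_sh (a b : ℤ) {k : ℕ}
    (hb : ∀ q0 i j : ℤ, ∑ x0 ∈ iv k q0, sqb k i j (A x0 (k + 1)) ≤ 8 ^ k * μ) (q0 n m : ℤ) :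
    ∑ x0 ∈ iv k q0, sqb k n m (shf a b (A x0) (k + 1)) ≤ 8 ^ k * (4 * μ) := by
  have h1 : ∀ x0 ∈ iv k q0, sqb k n m (shf a b (A x0) (k + 1)) ≤
      ∑ i ∈ two (n + ix k a), ∑ j ∈ two (m + ix k b), sqb k i j (A x0 (k + 1)) :=
    fun x0 _ => sqb_sh k a b (A x0 (k + 1)) n m
  refine (sum_le_sum h1).trans ?_
  simp only [sum_two, sum_add_distrib]
  have g1 := hb q0 (n + ix k a) (m + ix k b)
  have g2 := hb q0 (n + ix k a) (m + ix k b + 1)
  have g3 := hb q0 (n + ix k a + 1) (m + ix k b)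
  have g4 := hb q0 (n + ix k a + 1) (m + ix k b + 1)
  linarith

theorem pack_slice (hP : ∀ x0 : ℤ, PackS N (fun k i j => k < N ∧ Qc k (ix k x0, i, j)) cP)
    (a b R' S' x0 : ℤ) :
    ∑ k ∈ range N, ∑ m ∈ iv (N - k) S', ∑ n ∈ iv (N - k) R',
      (if Qs a b Qc k (ix k x0, n, m) then (4 : ℝ) ^ k else 0) ≤ 16 * cP * 4 ^ N := by
  have h := (hP x0).sh a b N le_rfl R' S'
  refine le_trans ?_ h
  rw [sum_range_succ]
  have h0 : (0 : ℝ) ≤ ∑ i ∈ iv (N - N) R', ∑ j ∈ iv (N - N) S',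
      (if Qsh a b (fun k i j => k < N ∧ Qc k (ix k x0, i, j)) N i j then (4 : ℝ) ^ N else 0) := by
    refine sum_nonneg fun _ _ => sum_nonneg fun _ _ => ?_
    split_ifs
    · positivity
    · exact le_rfl
  refine le_trans (le_of_eq ?_) (le_add_of_nonneg_right h0)
  refine sum_congr rfl fun k hk => ?_
  rw [sum_comm]
  refine sum_congr rfl fun n _ => sum_congr rfl fun m _ => ?_
  have e : Qsh a b (fun k i j => k < N ∧ Qc k (ix k x0, i, j)) k n m ↔
      Qs a b Qc k (ix k x0, n, m) := by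
    unfold Qsh Qs
    constructor
    · rintro ⟨x, hx, y, hy, _, hq⟩
      exact ⟨x, hx, y, hy, hq⟩
    · rintro ⟨x, hx, y, hy, hq⟩
      exact ⟨x, hx, y, hy, mem_range.1 hk, hq⟩
  by_cases hq : Qs a b Qc k (ix k x0, n, m)
  · rw [if_pos hq, if_pos (e.2 hq)]
  · rw [if_neg hq, if_neg fun h' => hq (e.1 h')]

/-- **Own energies of the translated path.** -/
theorem own_sh (hμ : 0 ≤ μ)
    (hP : ∀ x0 : ℤ, PackS N (fun k i j => k < N ∧ Qc k (ix k x0, i, j)) cP)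
    (hb : ∀ k < N, ∀ q0 i j : ℤ, ∑ x0 ∈ iv k q0, s4 k k (A x0 (k + 1)) i j ≤ 2 ^ k * μ)
    (a b t0 R' S' : ℤ) :
    ∑ x0 ∈ iv N t0, own4 N R' S' (Qsh a b fun k i j => Qc k (ix k x0, i, j)) (shf a b (A x0)) ≤
      4096 * cP * μ * 8 ^ N := by
  have e1 : ∀ x0 ∈ iv N t0, own4 N R' S' (Qsh a b fun k i j => Qc k (ix k x0, i, j))
      (shf a b (A x0)) = ∑ k ∈ range N, ∑ m ∈ iv (N - k) S', ∑ n ∈ iv (N - k) R',
        (if Qs a b Qc k (ix k x0, n, m) then 4 ^ k * s4 k k (shf a b (A x0) (k + 1)) n m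
          else 0) := by
    intro x0 _
    unfold own4
    rw [sum_Aff]
    rfl
  rw [sum_congr rfl e1]
  refine (H769.slice_sum (K := N) (t0 := t0) (R := R') (S := S') (c := 16 * cP) (μ := 256 * μ)
    (Q := Qs a b Qc) (T := fun x0 k n m => 4 ^ k * s4 k k (shf a b (A x0) (k + 1)) n m)
    (by positivity) (fun k hk q0 n m => ?_) (pack_slice hP a b R' S')).trans (le_of_eq (by ring))
  rw [← mul_sum]
  have h8 : (8 : ℝ) ^ k = 4 ^ k * 2 ^ k := by rw [← mul_pow]; norm_num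
  rw [h8, mul_assoc]
  exact mul_le_mul_of_nonneg_left (block_sh a b (hb k hk) q0 n m) (by positivity)

/-- **Power of the translated path.** -/
theorem pwr_sh (hμ : 0 ≤ μ)
    (hP : ∀ x0 : ℤ, PackS N (fun k i j => k < N ∧ Qc k (ix k x0, i, j)) cP)
    (hb : ∀ k < N, ∀ q0 i j : ℤ, ∑ x0 ∈ iv k q0, sqb k i j (A x0 (k + 1)) ≤ 8 ^ k * μ)
    (a b t0 R' S' : ℤ) :
    ∑ x0 ∈ iv N t0, pwr N R' S' (Qsh a b fun k i j => Qc k (ix k x0, i, j)) (shf a b (A x0)) ≤
      64 * cP * μ * 8 ^ N := by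
  have e1 : ∀ x0 ∈ iv N t0, pwr N R' S' (Qsh a b fun k i j => Qc k (ix k x0, i, j))
      (shf a b (A x0)) = ∑ k ∈ range N, ∑ m ∈ iv (N - k) S', ∑ n ∈ iv (N - k) R',
        (if Qs a b Qc k (ix k x0, n, m) then sqb k n m (shf a b (A x0) (k + 1)) else 0) := by
    intro x0 _
    rfl
  rw [sum_congr rfl e1]
  refine (H769.slice_sum (K := N) (t0 := t0) (R := R') (S := S') (c := 16 * cP) (μ := 4 * μ)
    (Q := Qs a b Qc) (T := fun x0 k n m => sqb k n m (shf a b (A x0) (k + 1)))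
    (by positivity) (fun k hk q0 n m => sqblock_sh a b (hb k hk) q0 n m)
    (pack_slice hP a b R' S')).trans (le_of_eq (by ring))

end energies

/-! ### The gauged path -/

/-- the affected cubes of the gauged path of the root `(X, Y)` -/
def Qpr (Λ : ℝ) (g : ℤ × ℤ → ℝ) (K : ℕ) (X Y : ℤ) (Q : ℕ → Pt → Prop) (k : ℕ) (m : Pt) : Prop :=
  k < K ∧ ix (K - k) m.2.1 = X ∧ ix (K - k) m.2.2 = Y ∧ H769.Qcb Λ g K Q k m

theorem Qpr_eq (Λ : ℝ) (g : ℤ × ℤ → ℝ) (K : ℕ) (X Y : ℤ) (Q : ℕ → Pt → Prop) (x0 : ℤ) :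
    (fun k i j => Qpr Λ g K X Y Q k (ix k x0, i, j)) = Qr K X Y (Qth Λ g K Q x0) := rfl

section gauged

variable {Λ : ℝ} {n : ℕ} {e cP M : ℝ} {F : ℕ → Pt → ℝ} {Q : ℕ → Pt → Prop}

theorem pack_pth (hcP : 0 ≤ cP) (hB : BSl n e cP F Q) {K : ℕ} (hK : K ≤ n) (g : ℤ × ℤ → ℝ)
    (s t x0 : ℤ) : PackS K (Qr K (ix K s) (ix K t) (Qth Λ g K Q x0)) (cP + 2) :=
  pack_rst (H769.pthSt Λ n e cP F Q hcP hB K hK g s t x0).2.2

/-- **Own energies of the gauged path on the translated grid**, root `(ix K s, ix K t)` of the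
old grid, any root of the new one. -/
theorem own_pth_sh (hΛ : 1 ≤ Λ) (hcP : 0 ≤ cP) (he : 0 ≤ e) (hM : 0 ≤ M) (hB : BSl n e cP F Q)
    (hMo : Mo4 n M F) {K : ℕ} (hK : K ≤ n) (g : ℤ × ℤ → ℝ) (s t a b t0 R' S' : ℤ) :
    ∑ x0 ∈ iv K t0, own4 K R' S' (Qsh a b (Qr K (ix K s) (ix K t) (Qth Λ g K Q x0)))
        (shf a b (rst K (ix K s) (ix K t) (pth Λ g K F x0))) ≤
      4096 * (cP + 2) * (8 * Λ ^ 2 * M * (A2 K g s t * √(A4 K g s t))) * 8 ^ K ∧
    ∑ x0 ∈ iv K t0, pwr K R' S' (Qsh a b (Qr K (ix K s) (ix K t) (Qth Λ g K Q x0)))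
        (shf a b (rst K (ix K s) (ix K t) (pth Λ g K F x0))) ≤
      64 * (cP + 2) * (4 * Λ * e * A2 K g s t) * 8 ^ K := by
  have hA2 : 0 ≤ A2 K g s t := PL.H315.A2_nonneg _ _ _ _
  have hA4 : 0 ≤ A4 K g s t := H769.A4_nonneg _ _ _ _
  have hP : ∀ x0 : ℤ, PackS K (fun k i j => k < K ∧ Qpr Λ g K (ix K s) (ix K t) Q k
      (ix k x0, i, j)) (cP + 2) := by
    intro x0
    have h := pack_pth (Λ := Λ) hcP hB hK g s t x0
    intro L hL I J
    refine le_trans (le_of_eq ?_) (h L hL I J)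
    refine sum_congr rfl fun k _ => sum_congr rfl fun i _ => sum_congr rfl fun j _ => ?_
    have hh : (k < K ∧ Qpr Λ g K (ix K s) (ix K t) Q k (ix k x0, i, j)) ↔
        Qr K (ix K s) (ix K t) (Qth Λ g K Q x0) k i j :=
      ⟨fun h => h.2, fun h => ⟨h.1, h⟩⟩
    by_cases hq : Qr K (ix K s) (ix K t) (Qth Λ g K Q x0) k i j
    · rw [if_pos hq, if_pos (hh.2 hq)]
    · rw [if_neg hq, if_neg fun h' => hq (hh.1 h')]
  constructor
  · have h := own_sh (N := K) (Qc := Qpr Λ g K (ix K s) (ix K t) Q)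
      (A := fun x0 => rst K (ix K s) (ix K t) (pth Λ g K F x0)) (cP := cP + 2)
      (μ := 8 * Λ ^ 2 * M * (A2 K g s t * √(A4 K g s t))) (by positivity) hP ?_ a b t0 R' S'
    · exact h
    · intro k hk q0 i j
      by_cases hh : ix (K - k) i = ix K s ∧ ix (K - k) j = ix K t
      · refine le_trans (le_of_eq ?_) (H769.s4_block hΛ hM hMo hK g hk q0 i j hh.1 hh.2)
        refine sum_congr rfl fun x0 _ => H769.s4_congr fun x hx y hy => ?_
        unfold rst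
        rw [ix_root hk.le hx, ix_root hk.le hy, if_pos hh]
      · have e0 : ∑ x0 ∈ iv k q0, s4 k k (rst K (ix K s) (ix K t) (pth Λ g K F x0) (k + 1)) i j
            = 0 := by
          refine sum_eq_zero fun x0 _ => ?_
          rw [H769.s4_congr (F' := fun _ _ => 0), H769.s4_zero]
          intro x hx y hy
          unfold rst
          rw [ix_root hk.le hx, ix_root hk.le hy, if_neg hh]
        rw [e0]
        positivity
  · have h := pwr_sh (N := K) (Qc := Qpr Λ g K (ix K s) (ix K t) Q)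
      (A := fun x0 => rst K (ix K s) (ix K t) (pth Λ g K F x0)) (cP := cP + 2)
      (μ := 4 * Λ * e * A2 K g s t) (by positivity) hP ?_ a b t0 R' S'
    · exact h
    · intro k hk q0 i j
      by_cases hh : ix (K - k) i = ix K s ∧ ix (K - k) j = ix K t
      · refine le_trans (le_of_eq ?_) (H769.sqb_block hΛ he hB hK g hk q0 i j hh.1 hh.2)
        refine sum_congr rfl fun x0 _ => ?_
        unfold sqb
        refine sum_congr rfl fun y hy => sum_congr rfl fun x hx => ?_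
        unfold rst
        rw [ix_root hk.le hx, ix_root hk.le hy, if_pos hh]
      · have e0 : ∑ x0 ∈ iv k q0, sqb k i j (rst K (ix K s) (ix K t) (pth Λ g K F x0) (k + 1))
            = 0 := by
          refine sum_eq_zero fun x0 _ => ?_
          unfold sqb
          refine sum_eq_zero fun y hy => sum_eq_zero fun x hx => ?_
          unfold rst
          rw [ix_root hk.le hx, ix_root hk.le hy, if_neg hh]
          norm_num
        rw [e0]
        positivity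

end gauged

end

end Vale.Agent.P141.H210
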