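import Vale.Agent.P141.H841.Lay

/-!
# P141, line (A): sums of the weights of the layers, near part

* `near_E`, `near_diag`, `near_om`: the sums (Q1), (Q3), (Q4) over the layers `i + 1 ≤ k + L` with the
  weights `om` of `H841.Lay`.
-/

namespace Vale.Agent.P141.H210

open Finset
open Vale.Agent.P141.H841 (om om_nonneg st)

noncomputable section

/-! ### Diagonals -/

/-- a double sum by the distance to the diagonal -/
theorem split_diag (n : ℕ) (f : ℕ → ℕ → ℝ) :
    ∑ k ∈ range (n + 1), ∑ i ∈ range n, f k i =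
      ∑ r ∈ range n, ∑ i ∈ range (n - r), f (i + 1 + r) i +
        ∑ d ∈ range n, ∑ k ∈ range (n - d), f k (k + d) := by
  have h0 : ∀ k i : ℕ, f k i = (if i < k then f k i else 0) + (if k ≤ i then f k i else 0) := by
    intro k i
    by_cases h : i < k
    · rw [if_pos h, if_neg (by omega), add_zero]
    · rw [if_neg h, if_pos (by omega), zero_add]
  have h1 : ∑ k ∈ range (n + 1), ∑ i ∈ range n, f k i =
      ∑ k ∈ range (n + 1), ∑ i ∈ range n, (if i < k then f k i else 0) +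
        ∑ k ∈ range (n + 1), ∑ i ∈ range n, (if k ≤ i then f k i else 0) := by
    rw [← sum_add_distrib]
    refine sum_congr rfl fun k _ => ?_
    rw [← sum_add_distrib]
    exact sum_congr rfl fun i _ => h0 k i
  rw [h1]
  congr 1
  · rw [sum_comm]
    have h2 : ∀ i ∈ range n, ∑ k ∈ range (n + 1), (if i < k then f k i else 0) =
        ∑ r ∈ range (n - i), f (i + 1 + r) i := by
      intro i hi
      rw [← sum_filter]
      have e : (range (n + 1)).filter (fun k => i < k) = Ico (i + 1) (n + 1) := by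
        ext x; simp only [mem_filter, mem_range, mem_Ico]; omega
      rw [e, sum_Ico_eq_sum_range]
      have e2 : n + 1 - (i + 1) = n - i := by omega
      rw [e2]
    rw [sum_congr rfl h2]
    exact sum_comm' fun i r => by simp only [mem_range]; omega
  · have h2 : ∀ k ∈ range (n + 1), ∑ i ∈ range n, (if k ≤ i then f k i else 0) =
        ∑ d ∈ range (n - k), f k (k + d) := by
      intro k hk
      rw [← sum_filter]
      have e : (range n).filter (fun i => k ≤ i) = Ico k n := by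
        ext x; simp only [mem_filter, mem_range, mem_Ico]; omega
      rw [e, sum_Ico_eq_sum_range]
    rw [sum_congr rfl h2]
    exact sum_comm' fun k d => by simp only [mem_range]; omega

theorem sum_sq_half (n : ℕ) :
    ∑ r ∈ range n, ((r : ℝ) + 1) ^ 2 * ((2 : ℝ) ^ (r + 1))⁻¹ =
      6 - ((n : ℝ) ^ 2 + 4 * n + 6) * ((2 : ℝ) ^ n)⁻¹ := by
  induction n with
  | zero => norm_num
  | succ n ih =>
    rw [sum_range_succ, ih]
    push_cast
    rw [pow_succ (2 : ℝ) n, mul_inv]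
    ring

theorem sum_four_half (n : ℕ) :
    ∑ r ∈ range n, ((r : ℝ) + 1) ^ 4 * ((2 : ℝ) ^ (r + 1))⁻¹ =
      150 - ((n : ℝ) ^ 4 + 8 * n ^ 3 + 36 * n ^ 2 + 104 * n + 150) * ((2 : ℝ) ^ n)⁻¹ := by
  induction n with
  | zero => norm_num
  | succ n ih =>
    rw [sum_range_succ, ih]
    push_cast
    rw [pow_succ (2 : ℝ) n, mul_inv]
    ring

theorem sum_sq_quarter (n : ℕ) :
    ∑ r ∈ range n, ((r : ℝ) + 1) ^ 2 * ((4 : ℝ) ^ (r + 1))⁻¹ =
      20 / 27 - ((n : ℝ) ^ 2 / 3 + 8 * n / 9 + 20 / 27) * ((4 : ℝ) ^ n)⁻¹ := by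
  induction n with
  | zero => norm_num
  | succ n ih =>
    rw [sum_range_succ, ih]
    push_cast
    rw [pow_succ (4 : ℝ) n, mul_inv]
    ring

theorem sum_sq_le (L : ℕ) : ∑ d ∈ range L, ((d : ℝ) + 1) ^ 2 ≤ (L : ℝ) ^ 3 := by
  have h : ∀ d ∈ range L, ((d : ℝ) + 1) ^ 2 ≤ (L : ℝ) ^ 2 := by
    intro d hd
    rw [mem_range] at hd
    have : (d : ℝ) + 1 ≤ L := by exact_mod_cast hd
    exact pow_le_pow_left₀ (by positivity) this 2
  refine (sum_le_sum h).trans (le_of_eq ?_)
  rw [sum_const, card_range, nsmul_eq_mul]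
  ring

/-- the near sum over the coarse diagonals -/
theorem sum_near_cube_le {L n : ℕ} {c : ℕ → ℝ} (hc : ∀ d, d < L → c d ≤ 8 * ((d : ℝ) + 1) ^ 2)
    (hc2 : ∀ d, L ≤ d → c d = 0) : ∑ d ∈ range n, c d ≤ 8 * (L : ℝ) ^ 3 := by
  have h1 : ∀ d ∈ range n, c d ≤ if d < L then 8 * ((d : ℝ) + 1) ^ 2 else 0 := by
    intro d _
    split_ifs with h
    · exact hc d h
    · exact (hc2 d (by omega)).le
  refine (sum_le_sum h1).trans ?_
  rw [← sum_filter]
  have h2 : (range n).filter (fun d => d < L) ⊆ range L := by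
    intro x hx
    rw [mem_filter] at hx
    exact mem_range.2 hx.2
  refine (sum_le_sum_of_subset_of_nonneg h2 fun _ _ _ => by positivity).trans ?_
  rw [← mul_sum]
  exact mul_le_mul_of_nonneg_left (sum_sq_le L) (by norm_num)

/-! ### The weights -/

theorem om_fine (sh : ℤ) {k i : ℕ} (h : i < k) (y : ℤ) :
    om sh k i y = 8 * ((k - i : ℕ) : ℝ) ^ 2 * ((4 : ℝ) ^ (k - i))⁻¹ := by
  unfold H841.om
  rw [if_pos h]

theorem om_coarse (sh : ℤ) {k i : ℕ} (h : k ≤ i) (y : ℤ) :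
    om sh k i y ≤ 8 * ((i + 1 - k : ℕ) : ℝ) ^ 2 := by
  unfold H841.om
  rw [if_neg (by omega)]
  split_ifs
  · positivity
  · exact le_rfl

/-- the weight on the fine diagonal `k = i + 1 + r`, times `2 ^ r` -/
theorem om_diag (sh : ℤ) (i r : ℕ) (y : ℤ) :
    om sh (i + 1 + r) i y * 2 ^ (i + 1 + r - (i + 1)) =
      4 * (((r : ℝ) + 1) ^ 2 * ((2 : ℝ) ^ (r + 1))⁻¹) := by
  rw [om_fine sh (by omega)]
  have e1 : i + 1 + r - i = r + 1 := by omega
  have e2 : i + 1 + r - (i + 1) = r := by omega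
  rw [e1, e2]
  have e3 : ((4 : ℝ) ^ (r + 1))⁻¹ = ((2 : ℝ) ^ (r + 1))⁻¹ * ((2 : ℝ) ^ (r + 1))⁻¹ := by
    rw [← mul_inv, ← mul_pow]; norm_num
  rw [e3]
  push_cast
  have h2 : ((2 : ℝ) ^ (r + 1))⁻¹ * 2 ^ r = 1 / 2 := by
    rw [pow_succ, mul_inv]
    have : (2 : ℝ) ^ r ≠ 0 := by positivity
    field_simp
  calc 8 * ((r : ℝ) + 1) ^ 2 * (((2 : ℝ) ^ (r + 1))⁻¹ * ((2 : ℝ) ^ (r + 1))⁻¹) * 2 ^ r
      = 8 * ((r : ℝ) + 1) ^ 2 * ((2 : ℝ) ^ (r + 1))⁻¹ * (((2 : ℝ) ^ (r + 1))⁻¹ * 2 ^ r) := by ring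
    _ = _ := by rw [h2]; ring

/-- (Q3) -/
theorem near_diag (n L : ℕ) (sh y : ℤ) {F : ℕ → ℕ → ℝ} (hF : ∀ k i, 0 ≤ F k i) {Z : ℝ}
    (hZ : 0 ≤ Z) (h1 : ∀ r < n, ∑ i ∈ range (n - r), F (i + 1 + r) i ≤ (1 + (r : ℝ)) ^ 2 * Z)
    (h2 : ∀ d, 1 ≤ d → d ≤ L → ∑ k ∈ range (n + 1 - d), F k (k + d - 1) ≤ Z) :
    ∑ k ∈ range (n + 1), ∑ i ∈ range n,
      (if i + 1 ≤ k + L then om sh k i y * 2 ^ (k - (i + 1)) * F k i else 0) ≤
      (600 + 8 * (L : ℝ) ^ 3) * Z := by
  rw [split_diag]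
  have f1 : ∑ r ∈ range n, ∑ i ∈ range (n - r), (if i + 1 ≤ i + 1 + r + L then
      om sh (i + 1 + r) i y * 2 ^ (i + 1 + r - (i + 1)) * F (i + 1 + r) i else 0) ≤ 600 * Z := by
    have g1 : ∀ r ∈ range n, ∑ i ∈ range (n - r), (if i + 1 ≤ i + 1 + r + L then
        om sh (i + 1 + r) i y * 2 ^ (i + 1 + r - (i + 1)) * F (i + 1 + r) i else 0) ≤
        4 * (((r : ℝ) + 1) ^ 4 * ((2 : ℝ) ^ (r + 1))⁻¹) * Z := by
      intro r hr
      rw [mem_range] at hr
      have e : ∀ i ∈ range (n - r), (if i + 1 ≤ i + 1 + r + L then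
          om sh (i + 1 + r) i y * 2 ^ (i + 1 + r - (i + 1)) * F (i + 1 + r) i else 0) =
          4 * (((r : ℝ) + 1) ^ 2 * ((2 : ℝ) ^ (r + 1))⁻¹) * F (i + 1 + r) i := by
        intro i _
        rw [if_pos (by omega), om_diag]
      rw [sum_congr rfl e, ← mul_sum]
      have h3 := mul_le_mul_of_nonneg_left (h1 r hr)
        (by positivity : (0 : ℝ) ≤ 4 * (((r : ℝ) + 1) ^ 2 * ((2 : ℝ) ^ (r + 1))⁻¹))
      refine h3.trans (le_of_eq ?_)
      ring
    refine (sum_le_sum g1).trans ?_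
    rw [← sum_mul, ← mul_sum, sum_four_half]
    refine mul_le_mul_of_nonneg_right ?_ hZ
    have : (0 : ℝ) ≤ ((n : ℝ) ^ 4 + 8 * n ^ 3 + 36 * n ^ 2 + 104 * n + 150) * ((2 : ℝ) ^ n)⁻¹ := by
      positivity
    linarith
  have f2 : ∑ d ∈ range n, ∑ k ∈ range (n - d), (if k + d + 1 ≤ k + L then
      om sh k (k + d) y * 2 ^ (k - (k + d + 1)) * F k (k + d) else 0) ≤ 8 * (L : ℝ) ^ 3 * Z := by
    have g1 : ∀ d ∈ range n, ∑ k ∈ range (n - d), (if k + d + 1 ≤ k + L then
        om sh k (k + d) y * 2 ^ (k - (k + d + 1)) * F k (k + d) else 0) ≤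
        (if d < L then 8 * ((d : ℝ) + 1) ^ 2 else 0) * Z := by
      intro d hd
      rw [mem_range] at hd
      by_cases h : d < L
      · rw [if_pos h]
        have e : ∀ k ∈ range (n - d), (if k + d + 1 ≤ k + L then
            om sh k (k + d) y * 2 ^ (k - (k + d + 1)) * F k (k + d) else 0) ≤
            8 * ((d : ℝ) + 1) ^ 2 * F k (k + d) := by
          intro k _
          rw [if_pos (by omega)]
          have e1 : k - (k + d + 1) = 0 := by omega
          have h3 := om_coarse sh (by omega : k ≤ k + d) y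
          have e2 : k + d + 1 - k = d + 1 := by omega
          rw [e2] at h3
          push_cast at h3
          rw [e1, pow_zero, mul_one]
          exact mul_le_mul_of_nonneg_right h3 (hF _ _)
        refine (sum_le_sum e).trans ?_
        rw [← mul_sum]
        have h4 := h2 (d + 1) (by omega) (by omega)
        have e3 : n + 1 - (d + 1) = n - d := by omega
        rw [e3] at h4
        have e4 : ∀ k : ℕ, k + (d + 1) - 1 = k + d := fun k => by omega
        simp only [e4] at h4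
        exact mul_le_mul_of_nonneg_left h4 (by positivity)
      · rw [if_neg h, zero_mul]
        refine le_of_eq (sum_eq_zero fun k _ => ?_)
        rw [if_neg (by omega)]
    refine (sum_le_sum g1).trans ?_
    rw [← sum_mul]
    refine mul_le_mul_of_nonneg_right ?_ hZ
    exact sum_near_cube_le (fun d h => by rw [if_pos h]) fun d h => by rw [if_neg (by omega)]
  calc _ ≤ 600 * Z + 8 * (L : ℝ) ^ 3 * Z := add_le_add f1 f2
    _ = _ := by ring

/-- (Q1) -/
theorem near_E (n L : ℕ) (sh y : ℤ) {E : ℕ → ℝ} (hE : ∀ i, 0 ≤ E i) :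
    ∑ k ∈ range (n + 1), ∑ i ∈ range n,
      (if i + 1 ≤ k + L then om sh k i y * 2 ^ (k - (i + 1)) * E i else 0) ≤
      (24 + 8 * (L : ℝ) ^ 3) * ∑ i ∈ range n, E i := by
  set Z := ∑ i ∈ range n, E i with hZd
  have hZ : 0 ≤ Z := sum_nonneg fun i _ => hE i
  rw [split_diag]
  have f1 : ∑ r ∈ range n, ∑ i ∈ range (n - r), (if i + 1 ≤ i + 1 + r + L then
      om sh (i + 1 + r) i y * 2 ^ (i + 1 + r - (i + 1)) * E i else 0) ≤ 24 * Z := by
    have g1 : ∀ r ∈ range n, ∑ i ∈ range (n - r), (if i + 1 ≤ i + 1 + r + L then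
        om sh (i + 1 + r) i y * 2 ^ (i + 1 + r - (i + 1)) * E i else 0) ≤
        4 * (((r : ℝ) + 1) ^ 2 * ((2 : ℝ) ^ (r + 1))⁻¹) * Z := by
      intro r hr
      have e : ∀ i ∈ range (n - r), (if i + 1 ≤ i + 1 + r + L then
          om sh (i + 1 + r) i y * 2 ^ (i + 1 + r - (i + 1)) * E i else 0) =
          4 * (((r : ℝ) + 1) ^ 2 * ((2 : ℝ) ^ (r + 1))⁻¹) * E i := by
        intro i _
        rw [if_pos (by omega), om_diag]
      rw [sum_congr rfl e, ← mul_sum]
      refine mul_le_mul_of_nonneg_left ?_ (by positivity)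
      exact sum_le_sum_of_subset_of_nonneg (range_mono (Nat.sub_le n r)) fun i _ _ => hE i
    refine (sum_le_sum g1).trans ?_
    rw [← sum_mul, ← mul_sum, sum_sq_half]
    refine mul_le_mul_of_nonneg_right ?_ hZ
    have : (0 : ℝ) ≤ ((n : ℝ) ^ 2 + 4 * n + 6) * ((2 : ℝ) ^ n)⁻¹ := by positivity
    linarith
  have f2 : ∑ d ∈ range n, ∑ k ∈ range (n - d), (if k + d + 1 ≤ k + L then
      om sh k (k + d) y * 2 ^ (k - (k + d + 1)) * E (k + d) else 0) ≤ 8 * (L : ℝ) ^ 3 * Z := by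
    have g1 : ∀ d ∈ range n, ∑ k ∈ range (n - d), (if k + d + 1 ≤ k + L then
        om sh k (k + d) y * 2 ^ (k - (k + d + 1)) * E (k + d) else 0) ≤
        (if d < L then 8 * ((d : ℝ) + 1) ^ 2 else 0) * Z := by
      intro d hd
      rw [mem_range] at hd
      by_cases h : d < L
      · rw [if_pos h]
        have e : ∀ k ∈ range (n - d), (if k + d + 1 ≤ k + L then
            om sh k (k + d) y * 2 ^ (k - (k + d + 1)) * E (k + d) else 0) ≤
            8 * ((d : ℝ) + 1) ^ 2 * E (k + d) := by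
          intro k _
          rw [if_pos (by omega)]
          have e1 : k - (k + d + 1) = 0 := by omega
          have h3 := om_coarse sh (by omega : k ≤ k + d) y
          have e2 : k + d + 1 - k = d + 1 := by omega
          rw [e2] at h3
          push_cast at h3
          rw [e1, pow_zero, mul_one]
          exact mul_le_mul_of_nonneg_right h3 (hE _)
        refine (sum_le_sum e).trans ?_
        rw [← mul_sum]
        refine mul_le_mul_of_nonneg_left ?_ (by positivity)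
        have e5 : ∑ k ∈ range (n - d), E (k + d) = ∑ i ∈ Ico d n, E i := by
          rw [range_eq_Ico, Finset.sum_Ico_add' E 0 (n - d) d]
          congr 1
          rw [zero_add, Nat.sub_add_cancel hd.le]
        rw [e5]
        exact sum_le_sum_of_subset_of_nonneg (fun x hx => by
          rw [mem_Ico] at hx; exact mem_range.2 hx.2) fun i _ _ => hE i
      · rw [if_neg h, zero_mul]
        refine le_of_eq (sum_eq_zero fun k _ => ?_)
        rw [if_neg (by omega)]
    refine (sum_le_sum g1).trans ?_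
    rw [← sum_mul]
    refine mul_le_mul_of_nonneg_right ?_ hZ
    exact sum_near_cube_le (fun d h => by rw [if_pos h]) fun d h => by rw [if_neg (by omega)]
  calc _ ≤ 24 * Z + 8 * (L : ℝ) ^ 3 * Z := add_le_add f1 f2
    _ = _ := by ring

/-- (Q4) -/
theorem near_om (n L : ℕ) (sh : ℤ) (k : ℕ) (y : ℤ) :
    ∑ i ∈ range n, (if i + 1 ≤ k + L then om sh k i y else 0) ≤ 8 + 8 * (L : ℝ) ^ 3 := by
  have h0 : ∀ i ∈ range n, (if i + 1 ≤ k + L then om sh k i y else 0) ≤
      (if i < k then 8 * ((k - i : ℕ) : ℝ) ^ 2 * ((4 : ℝ) ^ (k - i))⁻¹ else 0) +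
        (if k ≤ i ∧ i < k + L then 8 * ((i + 1 - k : ℕ) : ℝ) ^ 2 else 0) := by
    intro i _
    by_cases h : i < k
    · have e2 : (if k ≤ i ∧ i < k + L then 8 * ((i + 1 - k : ℕ) : ℝ) ^ 2 else 0) = (0 : ℝ) :=
        if_neg (by omega)
      rw [e2, if_pos h, add_zero, if_pos (by omega), om_fine sh h]
    · rw [if_neg h, zero_add]
      by_cases h2 : i + 1 ≤ k + L
      · rw [if_pos h2, if_pos (by omega)]
        exact om_coarse sh (by omega) y
      · rw [if_neg h2]
        split_ifs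
        · positivity
        · exact le_rfl
  refine (sum_le_sum h0).trans ?_
  rw [sum_add_distrib]
  refine add_le_add ?_ ?_
  · rw [← sum_filter]
    have hsub : (range n).filter (fun i => i < k) ⊆ range k := by
      intro x hx
      rw [mem_filter] at hx
      exact mem_range.2 hx.2
    refine (sum_le_sum_of_subset_of_nonneg hsub fun _ _ _ => by positivity).trans ?_
    have e : ∑ i ∈ range k, 8 * ((k - i : ℕ) : ℝ) ^ 2 * ((4 : ℝ) ^ (k - i))⁻¹ =
        8 * ∑ r ∈ range k, ((r : ℝ) + 1) ^ 2 * ((4 : ℝ) ^ (r + 1))⁻¹ := by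
      rw [mul_sum, ← sum_range_reflect]
      refine sum_congr rfl fun i hi => ?_
      rw [mem_range] at hi
      have e1 : k - (k - 1 - i) = i + 1 := by omega
      rw [e1]
      push_cast
      ring
    rw [e, sum_sq_quarter]
    have : (0 : ℝ) ≤ ((k : ℝ) ^ 2 / 3 + 8 * k / 9 + 20 / 27) * ((4 : ℝ) ^ k)⁻¹ := by positivity
    linarith
  · rw [← sum_filter]
    have hsub : (range n).filter (fun i => k ≤ i ∧ i < k + L) ⊆ Ico k (k + L) := by
      intro x hx
      rw [mem_filter] at hx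
      exact mem_Ico.2 hx.2
    refine (sum_le_sum_of_subset_of_nonneg hsub fun _ _ _ => by positivity).trans ?_
    rw [sum_Ico_eq_sum_range, Nat.add_sub_cancel_left]
    have e : ∑ d ∈ range L, 8 * ((k + d + 1 - k : ℕ) : ℝ) ^ 2 =
        8 * ∑ d ∈ range L, ((d : ℝ) + 1) ^ 2 := by
      rw [mul_sum]
      refine sum_congr rfl fun d _ => ?_
      have e1 : k + d + 1 - k = d + 1 := by omega
      rw [e1]
      push_cast
      ring
    rw [e]
    exact mul_le_mul_of_nonneg_left (sum_sq_le L) (by norm_num)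

end

end Vale.Agent.P141.H210
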