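import Vale.Agent.P141.H769.EN3
import Vale.Agent.P141.H498.S4Add

/-!
# P141, line (A): slots on translated dyadic grids

The first variable (`x₀`) is not moved.  `sh a b F` is the slot seen from the grid translated by
`(a, b)` in the last two variables; `shf a b A` the same for a path at one `x₀`.

* `BSl.sh`, `BUn.sh`, `US.sh`, `ES.sh`: box form, uniformity;
* `path_sh`, `pack_sh`: paths and their packing;
* `s4_sh`, `sqb_sh`: the `S4` energy and the `L²` sum of a translated square;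
* `own_sh`: own energies summed over `x₀`.
-/

namespace Vale.Agent.P141.H210

open Finset Vale.Agent.P141.PL
open Vale.Agent.P141.PL.H315 (cube3 atm Tri A2 avg avg_nonneg e12 e13 e23)
open Vale.Agent.P141.H922 (n2 n4 nN pw3 wP n2_nonneg n4_nonneg nN_nonneg)
open Vale.Agent.P141.H958 (Aff PackQ s4 s4_nonneg pwr sum_Aff mem_Aff)
open Vale.Agent.P141.H736 (Path sqb sqQ sqb_nonneg)
open Vale.Agent.P141.H48
open Vale.Agent.P141.H498 (s4k s4k_nonneg s4k_swap s4k_add_le s4k_congr)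

noncomputable section

open scoped Classical

/-! ### The line -/

/-- the two cells of the old grid met by a translated cell -/
theorem ix_add (k : ℕ) (x a : ℤ) :
    ix k (x + a) = ix k x + ix k a ∨ ix k (x + a) = ix k x + ix k a + 1 := by
  unfold ix
  have h2 : (0 : ℤ) < 2 ^ k := by positivity
  set P : ℤ := 2 ^ k with hP
  have e1 := Int.mul_ediv_add_emod x P
  have e2 := Int.mul_ediv_add_emod a P
  have e3 := Int.mul_ediv_add_emod (x + a) P
  have n1 := Int.emod_nonneg x h2.ne'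
  have n2 := Int.emod_nonneg a h2.ne'
  have n3 := Int.emod_nonneg (x + a) h2.ne'
  have l1 := Int.emod_lt_of_pos x h2
  have l2 := Int.emod_lt_of_pos a h2
  have l3 := Int.emod_lt_of_pos (x + a) h2
  have u : P * ((x + a) / P - (x / P + a / P)) < 2 * P := by nlinarith
  have v : -P < P * ((x + a) / P - (x / P + a / P)) := by nlinarith
  have u' : (x + a) / P - (x / P + a / P) < 2 := by nlinarith
  have v' : -1 < (x + a) / P - (x / P + a / P) := by nlinarith
  omega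

/-- the old cells `c`, `c + 1` -/
def two (c : ℤ) : Finset ℤ := {c, c + 1}

theorem mem_two {c i : ℤ} : i ∈ two c ↔ i = c ∨ i = c + 1 := by
  unfold two
  rw [mem_insert, mem_singleton]

theorem ix_mem_two (k : ℕ) (x a : ℤ) : ix k (x + a) ∈ two (ix k x + ix k a) := mem_two.2 (ix_add ..)

theorem sum_two (c : ℤ) (f : ℤ → ℝ) : ∑ i ∈ two c, f i = f c + f (c + 1) := by
  unfold two
  rw [sum_pair (by omega)]

/-- a translated sum of a function cut to a set -/
theorem sum_tr_le (B B' : Finset ℤ) (a : ℤ) {h : ℤ → ℝ} (hh : ∀ x, 0 ≤ h x) :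
    ∑ x ∈ B, (if x + a ∈ B' then h (x + a) else 0) ≤ ∑ x ∈ B', h x := by
  rw [← sum_filter]
  have e : ∑ x ∈ B.filter (fun x => x + a ∈ B'), h (x + a) =
      ∑ x ∈ (B.filter (fun x => x + a ∈ B')).map (addRightEmbedding a), h x := by
    rw [sum_map]
    rfl
  rw [e]
  refine sum_le_sum_of_subset_of_nonneg ?_ fun x _ _ => hh x
  intro x hx
  rw [mem_map] at hx
  obtain ⟨y, hy, rfl⟩ := hx
  exact (mem_filter.1 hy).2

/-- a translated sum over a cell, as a sum over the two old cells -/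
theorem sum_cell (k : ℕ) (n a : ℤ) (g : ℤ → ℝ) :
    ∑ x ∈ iv k n, g (x + a) =
      ∑ i ∈ two (n + ix k a), ∑ x ∈ iv k i, (if x - a ∈ iv k n then g x else 0) := by
  have hd : ((two (n + ix k a) : Finset ℤ) : Set ℤ).PairwiseDisjoint (fun i => iv k i) := by
    intro i _ j _ hij
    rw [Function.onFun, disjoint_left]
    intro x hx hx'
    exact hij ((mem_iv.1 hx).symm.trans (mem_iv.1 hx'))
  rw [← sum_biUnion hd, ← sum_filter]
  refine sum_bij (fun x _ => x + a) ?_ (fun x _ y _ h => by simpa using h) ?_ fun _ _ => rfl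
  · intro x hx
    rw [mem_filter, mem_biUnion]
    refine ⟨⟨ix k (x + a), ?_, self_mem_iv _ _⟩, by simpa using hx⟩
    rw [← mem_iv.1 hx]
    exact ix_mem_two ..
  · intro y hy
    exact ⟨y - a, (mem_filter.1 hy).2, by ring⟩

theorem sum_cell_le (k : ℕ) (n a : ℤ) {g : ℤ → ℝ} (hg : ∀ x, 0 ≤ g x) :
    ∑ x ∈ iv k n, g (x + a) ≤ ∑ i ∈ two (n + ix k a), ∑ x ∈ iv k i, g x := by
  rw [sum_cell]
  refine sum_le_sum fun i _ => sum_le_sum fun x _ => ?_
  split_ifs
  · exact le_rfl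
  · exact hg x

/-- the cut sum over one old cell is at most the sum over the translated cell -/
theorem sum_cut_le (k : ℕ) (n a i : ℤ) {g : ℤ → ℝ} (hg : ∀ x, 0 ≤ g x) :
    ∑ x ∈ iv k i, (if x - a ∈ iv k n then g (x - a) else 0) ≤ ∑ x ∈ iv k n, g x := by
  have h := sum_tr_le (iv k i) (iv k n) (-a) hg
  simpa [sub_eq_add_neg] using h

/-! ### Affected squares -/

/-- affected translated squares -/
def Qsh (a b : ℤ) (Q : ℕ → ℤ → ℤ → Prop) (k : ℕ) (n m : ℤ) : Prop :=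
  ∃ x ∈ iv k n, ∃ y ∈ iv k m, Q k (ix k (x + a)) (ix k (y + b))

/-- the old cells of scale `l` in the two old roots met by a translated root -/
def uc (l : ℕ) (c : ℤ) : Finset ℤ := (two c).biUnion fun I => iv l I

theorem cells_disj (l : ℕ) (T : Finset ℤ) : (T : Set ℤ).PairwiseDisjoint (fun i => iv l i) := by
  intro i _ j _ hij
  rw [Function.onFun, disjoint_left]
  intro x hx hx'
  exact hij ((mem_iv.1 hx).symm.trans (mem_iv.1 hx'))

theorem sum_uc (l : ℕ) (c : ℤ) (f : ℤ → ℝ) :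
    ∑ i ∈ uc l c, f i = ∑ I ∈ two c, ∑ i ∈ iv l I, f i := by
  unfold uc
  rw [sum_biUnion (cells_disj l _)]

theorem mem_uc_add {k K : ℕ} (hk : k ≤ K) {x R : ℤ} (hx : ix K x = R) (a : ℤ) :
    ix k (x + a) ∈ uc (K - k) (R + ix K a) := by
  unfold uc
  rw [mem_biUnion]
  refine ⟨ix K (x + a), ?_, ?_⟩
  · rw [← hx]; exact ix_mem_two ..
  · rw [mem_iv, ix_ix]
    congr 1
    omega

/-- an affected translated square meets an affected old square -/
theorem Qsh_le (a b : ℤ) {Q : ℕ → ℤ → ℤ → Prop} {k K : ℕ} (hk : k ≤ K) {R S n m : ℤ}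
    (hn : n ∈ iv (K - k) R) (hm : m ∈ iv (K - k) S) :
    (if Qsh a b Q k n m then (4 : ℝ) ^ k else 0) ≤
      ∑ i ∈ uc (K - k) (R + ix K a), ∑ j ∈ uc (K - k) (S + ix K b),
        (if Q k i j then (4 : ℝ) ^ k else 0) * ((if i ∈ two (n + ix k a) then (1 : ℝ) else 0) *
          (if j ∈ two (m + ix k b) then (1 : ℝ) else 0)) := by
  have h0 : ∀ i j : ℤ, (0 : ℝ) ≤ (if Q k i j then (4 : ℝ) ^ k else 0) *
      ((if i ∈ two (n + ix k a) then (1 : ℝ) else 0) *
          (if j ∈ two (m + ix k b) then (1 : ℝ) else 0)) := by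
    intro i j
    refine mul_nonneg ?_ (mul_nonneg ?_ ?_) <;> split_ifs <;> positivity
  by_cases h : Qsh a b Q k n m
  · rw [if_pos h]
    obtain ⟨x, hx, y, hy, hq⟩ := h
    have hx1 := mem_iv.1 hx
    have hy1 := mem_iv.1 hy
    have hn1 := mem_iv.1 hn
    have hm1 := mem_iv.1 hm
    have eX : ix K x = R := by
      rw [← hn1, ← hx1, ix_ix]
      congr 1
      omega
    have eY : ix K y = S := by
      rw [← hm1, ← hy1, ix_ix]
      congr 1
      omega
    have k5 : ix k (x + a) ∈ two (n + ix k a) := by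
      rw [← hx1]; exact ix_mem_two ..
    have k6 : ix k (y + b) ∈ two (m + ix k b) := by
      rw [← hy1]; exact ix_mem_two ..
    have e1 : (4 : ℝ) ^ k = (if Q k (ix k (x + a)) (ix k (y + b)) then (4 : ℝ) ^ k else 0) *
        ((if ix k (x + a) ∈ two (n + ix k a) then (1 : ℝ) else 0) *
          (if ix k (y + b) ∈ two (m + ix k b) then (1 : ℝ) else 0)) := by
      rw [if_pos hq, if_pos k5, if_pos k6, mul_one, mul_one]
    refine (le_of_eq e1).trans ?_
    refine (single_le_sum (f := fun j => (if Q k (ix k (x + a)) j then (4 : ℝ) ^ k else 0) *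
        ((if ix k (x + a) ∈ two (n + ix k a) then (1 : ℝ) else 0) *
          (if j ∈ two (m + ix k b) then (1 : ℝ) else 0))) (fun j _ => h0 _ j)
            (mem_uc_add hk eY b)).trans ?_
    exact single_le_sum (f := fun i => ∑ j ∈ uc (K - k) (S + ix K b),
        (if Q k i j then (4 : ℝ) ^ k else 0) * ((if i ∈ two (n + ix k a) then (1 : ℝ) else 0) *
          (if j ∈ two (m + ix k b) then (1 : ℝ) else 0)))
        (fun i _ => sum_nonneg fun j _ => h0 i j) (mem_uc_add hk eX a)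
  · rw [if_neg h]
    exact sum_nonneg fun i _ => sum_nonneg fun j _ => h0 i j

/-- few translated cells near an old one -/
theorem sum_near_le (T : Finset ℤ) (i c : ℤ) :
    ∑ n ∈ T, (if i ∈ two (n + c) then (1 : ℝ) else 0) ≤ 2 := by
  rw [← sum_filter, sum_const, nsmul_eq_mul, mul_one]
  have h : T.filter (fun n => i ∈ two (n + c)) ⊆ {i - c, i - c - 1} := by
    intro n hn
    have h1 := mem_two.1 (mem_filter.1 hn).2
    rw [mem_insert, mem_singleton]
    omega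
  have h2 := (card_le_card h).trans (card_le_two)
  exact_mod_cast h2

/-- exchange of the sums -/
theorem sum_four (A B U V : Finset ℤ) (w : ℤ → ℤ → ℝ) (α β : ℤ → ℤ → ℝ) :
    ∑ n ∈ A, ∑ m ∈ B, ∑ i ∈ U, ∑ j ∈ V, w i j * (α n i * β m j) =
      ∑ i ∈ U, ∑ j ∈ V, w i j * ((∑ n ∈ A, α n i) * ∑ m ∈ B, β m j) := by
  have h1 : ∀ n ∈ A, ∑ m ∈ B, ∑ i ∈ U, ∑ j ∈ V, w i j * (α n i * β m j) =
      ∑ i ∈ U, ∑ j ∈ V, w i j * (α n i * ∑ m ∈ B, β m j) := by
    intro n _
    rw [sum_comm]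
    refine sum_congr rfl fun i _ => ?_
    rw [sum_comm]
    refine sum_congr rfl fun j _ => ?_
    rw [mul_sum, mul_sum]
  rw [sum_congr rfl h1, sum_comm]
  refine sum_congr rfl fun i _ => ?_
  rw [sum_comm]
  refine sum_congr rfl fun j _ => ?_
  rw [sum_mul, mul_sum]

/-- number of affected translated squares in a root -/
theorem count_sh (a b : ℤ) {Q : ℕ → ℤ → ℤ → Prop} {k K : ℕ} (hk : k ≤ K) (R S : ℤ) :
    ∑ n ∈ iv (K - k) R, ∑ m ∈ iv (K - k) S, (if Qsh a b Q k n m then (4 : ℝ) ^ k else 0) ≤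
      4 * ∑ I ∈ two (R + ix K a), ∑ J ∈ two (S + ix K b), ∑ i ∈ iv (K - k) I,
        ∑ j ∈ iv (K - k) J, (if Q k i j then (4 : ℝ) ^ k else 0) := by
  refine (sum_le_sum fun n hn => sum_le_sum fun m hm => Qsh_le a b hk hn hm).trans ?_
  rw [sum_four]
  have e3 : ∑ I ∈ two (R + ix K a), ∑ J ∈ two (S + ix K b), ∑ i ∈ iv (K - k) I,
      ∑ j ∈ iv (K - k) J, (if Q k i j then (4 : ℝ) ^ k else 0) =
      ∑ i ∈ uc (K - k) (R + ix K a), ∑ j ∈ uc (K - k) (S + ix K b),
        (if Q k i j then (4 : ℝ) ^ k else 0) := by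
    rw [sum_uc]
    refine sum_congr rfl fun I _ => ?_
    rw [sum_comm]
    exact sum_congr rfl fun i _ => (sum_uc _ _ _).symm
  rw [e3, mul_sum]
  refine sum_le_sum fun i _ => ?_
  rw [mul_sum]
  refine sum_le_sum fun j _ => ?_
  have h3 := sum_near_le (iv (K - k) R) i (ix k a)
  have h4 := sum_near_le (iv (K - k) S) j (ix k b)
  have h5 : (0 : ℝ) ≤ ∑ m ∈ iv (K - k) S, (if j ∈ two (m + ix k b) then (1 : ℝ) else 0) :=
    sum_nonneg fun _ _ => by split_ifs <;> norm_num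
  have h6 : (0 : ℝ) ≤ (if Q k i j then (4 : ℝ) ^ k else 0) := by
    split_ifs
    · positivity
    · exact le_rfl
  nlinarith [mul_le_mul h3 h4 h5 (by norm_num : (0 : ℝ) ≤ 2)]

/-- **Packing of the affected translated squares**, sums over scales. -/
theorem pack_sum (a b : ℤ) {Q : ℕ → ℤ → ℤ → Prop} {K : ℕ} {cP : ℝ} (T : Finset ℕ)
    (hT : ∀ k ∈ T, k ≤ K)
    (h : ∀ I J : ℤ, ∑ k ∈ T, ∑ i ∈ iv (K - k) I, ∑ j ∈ iv (K - k) J,
      (if Q k i j then (4 : ℝ) ^ k else 0) ≤ cP * 4 ^ K) (R S : ℤ) :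
    ∑ k ∈ T, ∑ n ∈ iv (K - k) R, ∑ m ∈ iv (K - k) S,
      (if Qsh a b Q k n m then (4 : ℝ) ^ k else 0) ≤ 16 * cP * 4 ^ K := by
  refine (sum_le_sum fun k hk => count_sh a b (hT k hk) R S).trans ?_
  rw [← mul_sum, sum_comm]
  have h1 : ∀ I ∈ two (R + ix K a), ∑ k ∈ T, ∑ J ∈ two (S + ix K b), ∑ i ∈ iv (K - k) I,
      ∑ j ∈ iv (K - k) J, (if Q k i j then (4 : ℝ) ^ k else 0) ≤ 2 * (cP * 4 ^ K) := by
    intro I _
    rw [sum_comm]
    refine (sum_le_sum fun J _ => h I J).trans (le_of_eq ?_)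
    rw [sum_two]
    ring
  refine (mul_le_mul_of_nonneg_left (sum_le_sum h1) (by norm_num)).trans (le_of_eq ?_)
  rw [sum_two]
  ring

/-! ### Box form -/

/-- the slot seen from the translated grid -/
def sh (a b : ℤ) (F : ℕ → Pt → ℝ) : ℕ → Pt → ℝ := fun k y => F k (y.1, y.2.1 + a, y.2.2 + b)

/-- the affected translated cubes -/
def Qs (a b : ℤ) (Q : ℕ → Pt → Prop) (k : ℕ) (m : Pt) : Prop :=
  ∃ x ∈ iv k m.2.1, ∃ y ∈ iv k m.2.2, Q k (m.1, ix k (x + a), ix k (y + b))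

/-- **Translation of the box form.** -/
theorem bsl_sh {n : ℕ} {e cP : ℝ} {F : ℕ → Pt → ℝ} {Q : ℕ → Pt → Prop} (h : BSl n e cP F Q)
    (a b : ℤ) : BSl n (2 * e) (16 * cP) (sh a b F) (Qs a b Q) := by
  refine ⟨fun k hk hkn m hm y hy => ?_, fun x0 K hK r s => ?_, fun k hk m x y => ?_,
    fun k hk m z y => ?_, fun k hk m z x => ?_⟩
  · have h1 := mem_cb.1 hy
    have e1 : ix k y.1 = m.1 := congrArg Prod.fst h1
    have e2 : ix k y.2.1 = m.2.1 := congrArg (fun p : Pt => p.2.1) h1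
    have e3 : ix k y.2.2 = m.2.2 := congrArg (fun p : Pt => p.2.2) h1
    refine h.agree k hk hkn (m.1, ix k (y.2.1 + a), ix k (y.2.2 + b)) (fun hq => hm ?_) _ ?_
    · exact ⟨y.2.1, mem_iv.2 e2, y.2.2, mem_iv.2 e3, hq⟩
    · rw [mem_cb]
      unfold cx
      rw [← e1]
  · exact pack_sum a b (Q := fun k i j => Q k (ix k x0, i, j)) (range (K + 1))
      (fun k hk => by rw [mem_range] at hk; omega) (fun I J => h.pack x0 K hK I J) r s
  · have h1 := h.l0 k hk m (x + a) (y + b)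
    have h0 : (0 : ℝ) ≤ ∑ z ∈ iv k m, F (k + 1) (z, x + a, y + b) ^ 2 :=
      sum_nonneg fun _ _ => sq_nonneg _
    have h2 : (0 : ℝ) ≤ e * 2 ^ k := h0.trans h1
    show ∑ z ∈ iv k m, F (k + 1) (z, x + a, y + b) ^ 2 ≤ 2 * e * 2 ^ k
    linarith
  · have h1 := sum_cell_le k m a (g := fun x => F (k + 1) (z, x, y + b) ^ 2)
      fun _ => sq_nonneg _
    rw [sum_two] at h1
    have h2 := h.l1 k hk (m + ix k a) z (y + b)
    have h3 := h.l1 k hk (m + ix k a + 1) z (y + b)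
    show ∑ x ∈ iv k m, F (k + 1) (z, x + a, y + b) ^ 2 ≤ 2 * e * 2 ^ k
    linarith
  · have h1 := sum_cell_le k m b (g := fun y => F (k + 1) (z, x + a, y) ^ 2)
      fun _ => sq_nonneg _
    rw [sum_two] at h1
    have h2 := h.l2 k hk (m + ix k b) z (x + a)
    have h3 := h.l2 k hk (m + ix k b + 1) z (x + a)
    show ∑ y ∈ iv k m, F (k + 1) (z, x + a, y + b) ^ 2 ≤ 2 * e * 2 ^ k
    linarith

/-! ### Uniformity -/

/-- the atom seen from the old grid, cut to the translated square `(p, r)` -/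
def ush (a b : ℤ) (k : ℕ) (p r : ℤ) (u : Tri) : Tri :=
  (fun w => if w.2 - a ∈ iv k p then u.1 (w.1, w.2 - a) else 0,
    fun w => if w.2 - b ∈ iv k r then u.2.1 (w.1, w.2 - b) else 0,
    fun w => if w.1 - a ∈ iv k p ∧ w.2 - b ∈ iv k r then u.2.2 (w.1 - a, w.2 - b) else 0)

theorem avg_cb (k : ℕ) (q : Pt) (f : Pt → ℝ) :
    avg (cb k q) f =
      ((8 : ℝ) ^ k)⁻¹ * ∑ z ∈ iv k q.1, ∑ x ∈ iv k q.2.1, ∑ y ∈ iv k q.2.2, f (z, x, y) := by
  unfold avg
  rw [card_cb]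
  unfold cb
  rw [sum_product]
  push_cast
  congr 1
  exact sum_congr rfl fun z _ => sum_product ..

section norms

variable (a b : ℤ) (k : ℕ) (p r q0 i j : ℤ) (u : Tri) {g : ℝ → ℝ}

theorem tr12 (g0 : g 0 = 0) (hg : ∀ x, 0 ≤ g x) :
    avg (cb k (q0, i, j)) (fun y => g (e12 (ush a b k p r u).1 y)) ≤
      avg (cb k (q0, p, r)) fun y => g (e12 u.1 y) := by
  rw [avg_cb, avg_cb]
  refine mul_le_mul_of_nonneg_left (sum_le_sum fun z _ => ?_) (by positivity)
  have e1 : ∀ x, ∑ y ∈ iv k j, g (e12 (ush a b k p r u).1 (z, x, y)) =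
      2 ^ k * (if x - a ∈ iv k p then g (u.1 (z, x - a)) else 0) := by
    intro x
    have e2 : ∀ y ∈ iv k j, g (e12 (ush a b k p r u).1 (z, x, y)) =
        (if x - a ∈ iv k p then g (u.1 (z, x - a)) else 0) := by
      intro y _
      unfold e12 ush
      dsimp only
      split_ifs
      · rfl
      · exact g0
    rw [sum_congr rfl e2, sum_const, card_iv, nsmul_eq_mul]
    push_cast
    ring
  have e3 : ∀ x, ∑ y ∈ iv k r, g (e12 u.1 (z, x, y)) = 2 ^ k * g (u.1 (z, x)) := by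
    intro x
    have e2 : ∀ y ∈ iv k r, g (e12 u.1 (z, x, y)) = g (u.1 (z, x)) := fun y _ => rfl
    rw [sum_congr rfl e2, sum_const, card_iv, nsmul_eq_mul]
    push_cast
    ring
  show ∑ x ∈ iv k i, ∑ y ∈ iv k j, g (e12 (ush a b k p r u).1 (z, x, y)) ≤
    ∑ x ∈ iv k p, ∑ y ∈ iv k r, g (e12 u.1 (z, x, y))
  rw [sum_congr rfl fun x _ => e1 x, sum_congr rfl fun x _ => e3 x, ← mul_sum, ← mul_sum]
  refine mul_le_mul_of_nonneg_left ?_ (by positivity)
  exact sum_cut_le k p a i (g := fun x => g (u.1 (z, x))) fun _ => hg _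

theorem tr13 (g0 : g 0 = 0) (hg : ∀ x, 0 ≤ g x) :
    avg (cb k (q0, i, j)) (fun y => g (e13 (ush a b k p r u).2.1 y)) ≤
      avg (cb k (q0, p, r)) fun y => g (e13 u.2.1 y) := by
  rw [avg_cb, avg_cb]
  refine mul_le_mul_of_nonneg_left (sum_le_sum fun z _ => ?_) (by positivity)
  have e1 : ∀ x, ∑ y ∈ iv k j, g (e13 (ush a b k p r u).2.1 (z, x, y)) =
      ∑ y ∈ iv k j, (if y - b ∈ iv k r then g (u.2.1 (z, y - b)) else 0) := by
    intro x
    refine sum_congr rfl fun y _ => ?_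
    unfold e13 ush
    dsimp only
    split_ifs
    · rfl
    · exact g0
  have h1 := sum_cut_le k r b j (g := fun y => g (u.2.1 (z, y))) fun _ => hg _
  show ∑ x ∈ iv k i, ∑ y ∈ iv k j, g (e13 (ush a b k p r u).2.1 (z, x, y)) ≤
    ∑ x ∈ iv k p, ∑ y ∈ iv k r, g (e13 u.2.1 (z, x, y))
  have e3 : ∀ x, ∑ y ∈ iv k r, g (e13 u.2.1 (z, x, y)) = ∑ y ∈ iv k r, g (u.2.1 (z, y)) :=
    fun x => rfl
  rw [sum_congr rfl fun x _ => e1 x, sum_congr rfl fun x _ => e3 x, sum_const, sum_const, card_iv,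
    card_iv, nsmul_eq_mul, nsmul_eq_mul]
  exact mul_le_mul_of_nonneg_left h1 (by positivity)

theorem tr23 (g0 : g 0 = 0) (hg : ∀ x, 0 ≤ g x) :
    avg (cb k (q0, i, j)) (fun y => g (e23 (ush a b k p r u).2.2 y)) ≤
      avg (cb k (q0, p, r)) fun y => g (e23 u.2.2 y) := by
  rw [avg_cb, avg_cb]
  refine mul_le_mul_of_nonneg_left (sum_le_sum fun z _ => ?_) (by positivity)
  show ∑ x ∈ iv k i, ∑ y ∈ iv k j, g (e23 (ush a b k p r u).2.2 (z, x, y)) ≤
    ∑ x ∈ iv k p, ∑ y ∈ iv k r, g (e23 u.2.2 (z, x, y))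
  have e1 : ∀ x ∈ iv k i, ∑ y ∈ iv k j, g (e23 (ush a b k p r u).2.2 (z, x, y)) ≤
      (if x - a ∈ iv k p then ∑ y ∈ iv k r, g (u.2.2 (x - a, y)) else 0) := by
    intro x _
    by_cases hx : x - a ∈ iv k p
    · rw [if_pos hx]
      refine le_trans (le_of_eq ?_)
        (sum_cut_le k r b j (g := fun y => g (u.2.2 (x - a, y))) fun _ => hg _)
      refine sum_congr rfl fun y _ => ?_
      unfold e23 ush
      dsimp only
      by_cases hy : y - b ∈ iv k r
      · rw [if_pos ⟨hx, hy⟩, if_pos hy]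
      · rw [if_neg fun h => hy h.2, if_neg hy, g0]
    · rw [if_neg hx]
      refine le_of_eq (sum_eq_zero fun y _ => ?_)
      unfold e23 ush
      dsimp only
      rw [if_neg fun h => hx h.1, g0]
  refine (sum_le_sum e1).trans ?_
  exact sum_cut_le k p a i (g := fun x => ∑ y ∈ iv k r, g (u.2.2 (x, y)))
    fun _ => sum_nonneg fun _ _ => hg _

end norms

section mono

variable {X Y : Type*} {Q : Finset X} {Q' : Finset Y} {f : X → ℝ} {f' : Y → ℝ}

theorem n2_le_of (h : (avg Q fun x => f x ^ 2) ≤ avg Q' fun x => f' x ^ 2) :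
    n2 Q f ≤ n2 Q' f' := Real.sqrt_le_sqrt h

theorem n4_le_of (h : (avg Q fun x => f x ^ 4) ≤ avg Q' fun x => f' x ^ 4) :
    n4 Q f ≤ n4 Q' f' := Real.sqrt_le_sqrt (Real.sqrt_le_sqrt h)

theorem nN_le_of (h2 : (avg Q fun x => f x ^ 2) ≤ avg Q' fun x => f' x ^ 2)
    (h4 : (avg Q fun x => f x ^ 4) ≤ avg Q' fun x => f' x ^ 4) : nN Q f ≤ nN Q' f' :=
  Real.sqrt_le_sqrt (mul_le_mul (n2_le_of h2) (n4_le_of h4) (n4_nonneg _ _) (n2_nonneg _ _))

end mono

/-- the pair weight of the cut atom -/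
theorem wP_ush {t : ℝ} (ht : 0 ≤ t) (a b : ℤ) (k : ℕ) (p r q0 i j : ℤ) (u : Tri) :
    wP t (cb k (q0, i, j)) (ush a b k p r u) ≤ wP t (cb k (q0, p, r)) u := by
  have z2 : ((0 : ℝ) : ℝ) ^ 2 = 0 := by norm_num
  have z4 : ((0 : ℝ) : ℝ) ^ 4 = 0 := by norm_num
  have s2 : ∀ x : ℝ, 0 ≤ x ^ 2 := fun x => sq_nonneg x
  have s4' : ∀ x : ℝ, 0 ≤ x ^ 4 := fun x => by positivity
  have a12 := n2_le_of (tr12 a b k p r q0 i j u (g := fun x => x ^ 2) z2 s2)
  have a13 := n2_le_of (tr13 a b k p r q0 i j u (g := fun x => x ^ 2) z2 s2)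
  have a23 := n2_le_of (tr23 a b k p r q0 i j u (g := fun x => x ^ 2) z2 s2)
  have b12 := nN_le_of (tr12 a b k p r q0 i j u (g := fun x => x ^ 2) z2 s2)
    (tr12 a b k p r q0 i j u (g := fun x => x ^ 4) z4 s4')
  have b13 := nN_le_of (tr13 a b k p r q0 i j u (g := fun x => x ^ 2) z2 s2)
    (tr13 a b k p r q0 i j u (g := fun x => x ^ 4) z4 s4')
  have b23 := nN_le_of (tr23 a b k p r q0 i j u (g := fun x => x ^ 2) z2 s2)
    (tr23 a b k p r q0 i j u (g := fun x => x ^ 4) z4 s4')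
  unfold wP pw3
  rw [card_cb, card_cb]
  refine mul_le_mul_of_nonneg_left ?_ (by positivity)
  refine add_le_add (add_le_add ?_ ?_) ?_
  · exact mul_le_mul (mul_le_mul b12 b13 (nN_nonneg _ _) (nN_nonneg _ _)) a23 (n2_nonneg _ _)
      (mul_nonneg (nN_nonneg _ _) (nN_nonneg _ _))
  · exact mul_le_mul (mul_le_mul b12 b23 (nN_nonneg _ _) (nN_nonneg _ _)) a13 (n2_nonneg _ _)
      (mul_nonneg (nN_nonneg _ _) (nN_nonneg _ _))
  · exact mul_le_mul (mul_le_mul b13 b23 (nN_nonneg _ _) (nN_nonneg _ _)) a12 (n2_nonneg _ _)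
      (mul_nonneg (nN_nonneg _ _) (nN_nonneg _ _))

/-- the translated pairing as a sum over the four old cubes -/
theorem pair_sh (a b : ℤ) (k : ℕ) (q : Pt) (G : Pt → ℝ) (u : Tri) :
    ∑ y ∈ cb k q, G (y.1, y.2.1 + a, y.2.2 + b) * atm u y =
      ∑ i ∈ two (q.2.1 + ix k a), ∑ j ∈ two (q.2.2 + ix k b),
        ∑ y ∈ cb k (q.1, i, j), G y * atm (ush a b k q.2.1 q.2.2 u) y := by
  obtain ⟨q0, p, r⟩ := q
  have e0 : ∀ (m : Pt) (f : Pt → ℝ), ∑ y ∈ cb k m, f y =
      ∑ z ∈ iv k m.1, ∑ x ∈ iv k m.2.1, ∑ y ∈ iv k m.2.2, f (z, x, y) := by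
    intro m f
    unfold cb
    rw [sum_product]
    exact sum_congr rfl fun z _ => sum_product ..
  rw [e0]
  simp only [e0]
  have e1 : ∀ z, ∑ x ∈ iv k p, ∑ y ∈ iv k r, G (z, x + a, y + b) * atm u (z, x, y) =
      ∑ i ∈ two (p + ix k a), ∑ j ∈ two (r + ix k b), ∑ x ∈ iv k i, ∑ y ∈ iv k j,
        G (z, x, y) * atm (ush a b k p r u) (z, x, y) := by
    intro z
    have e2 : ∀ x ∈ iv k p, ∑ y ∈ iv k r, G (z, x + a, y + b) * atm u (z, x, y) =
        (fun x' => ∑ j ∈ two (r + ix k b), ∑ y ∈ iv k j,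
          (if y - b ∈ iv k r then G (z, x', y) * atm u (z, x' - a, y - b) else 0)) (x + a) := by
      intro x _
      have h := sum_cell k r b (fun y => G (z, x + a, y) * atm u (z, x + a - a, y - b))
      simp only [add_sub_cancel_right] at h ⊢
      exact h
    rw [sum_congr rfl e2, sum_cell k p a (fun x' => ∑ j ∈ two (r + ix k b), ∑ y ∈ iv k j,
          (if y - b ∈ iv k r then G (z, x', y) * atm u (z, x' - a, y - b) else 0))]
    refine sum_congr rfl fun i _ => ?_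
    rw [sum_comm]
    refine sum_congr rfl fun x _ => ?_
    by_cases hx : x - a ∈ iv k p
    · rw [if_pos hx]
      refine sum_congr rfl fun j _ => sum_congr rfl fun y _ => ?_
      by_cases hy : y - b ∈ iv k r
      · rw [if_pos hy]
        congr 1
        unfold atm e12 e13 e23 ush
        dsimp only
        rw [if_pos hx, if_pos hy, if_pos ⟨hx, hy⟩]
      · rw [if_neg hy]
        unfold atm e12 e13 e23 ush
        dsimp only
        rw [if_neg hy]
        ring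
    · rw [if_neg hx]
      symm
      refine sum_eq_zero fun j _ => sum_eq_zero fun y _ => ?_
      unfold atm e12 e13 e23 ush
      dsimp only
      rw [if_neg hx]
      ring
  have e3 : ∀ z ∈ iv k q0, ∑ x ∈ iv k p, ∑ y ∈ iv k r, G (z, x + a, y + b) * atm u (z, x, y) =
      ∑ i ∈ two (p + ix k a), ∑ j ∈ two (r + ix k b), ∑ x ∈ iv k i, ∑ y ∈ iv k j,
        G (z, x, y) * atm (ush a b k p r u) (z, x, y) := fun z _ => e1 z
  refine (sum_congr rfl e3).trans ?_
  rw [sum_comm]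
  refine sum_congr rfl fun i _ => ?_
  rw [sum_comm]

/-- **Translation of the uniformity.** -/
theorem bun_sh {n : ℕ} {t : ℝ} {F : ℕ → Pt → ℝ} (ht : 0 ≤ t) (h : BUn n t F) (a b : ℤ) :
    BUn n (4 * t) (sh a b F) := by
  intro k hk q u
  have hc : cube3 k q = cb k (cx k q) := rfl
  rw [hc]
  have e1 := pair_sh a b k (cx k q) (F (k + 1)) u
  have e2 : ∑ y ∈ cb k (cx k q), sh a b F (k + 1) y * atm u y =
      ∑ y ∈ cb k (cx k q), F (k + 1) (y.1, y.2.1 + a, y.2.2 + b) * atm u y := rfl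
  rw [e2, e1]
  have h1 : ∀ i j : ℤ, |∑ y ∈ cb k ((cx k q).1, i, j),
      F (k + 1) y * atm (ush a b k (cx k q).2.1 (cx k q).2.2 u) y| ≤
      wP t (cb k (cx k q)) u := by
    intro i j
    have h2 := h k hk (2 ^ k * (cx k q).1, 2 ^ k * i, 2 ^ k * j)
      (ush a b k (cx k q).2.1 (cx k q).2.2 u)
    have e3 : cube3 k (2 ^ k * (cx k q).1, 2 ^ k * i, 2 ^ k * j) = cb k ((cx k q).1, i, j) := by
      show cb k (cx k (2 ^ k * (cx k q).1, 2 ^ k * i, 2 ^ k * j)) = _
      congr 1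
      unfold cx ix
      have h3 : (2 : ℤ) ^ k ≠ 0 := by positivity
      simp only [Int.mul_ediv_cancel_left _ h3]
    rw [e3] at h2
    exact h2.trans (wP_ush ht a b k (cx k q).2.1 (cx k q).2.2 (cx k q).1 i j u)
  rw [sum_two]
  simp only [sum_two]
  have e4 : wP (4 * t) (cb k (cx k q)) u = 4 * wP t (cb k (cx k q)) u := by
    unfold wP
    ring
  rw [e4]
  refine (abs_add_le _ _).trans ?_
  have h5 := abs_add_le (∑ y ∈ cb k ((cx k q).1, (cx k q).2.1 + ix k a, (cx k q).2.2 + ix k b),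
      F (k + 1) y * atm (ush a b k (cx k q).2.1 (cx k q).2.2 u) y)
    (∑ y ∈ cb k ((cx k q).1, (cx k q).2.1 + ix k a, (cx k q).2.2 + ix k b + 1),
      F (k + 1) y * atm (ush a b k (cx k q).2.1 (cx k q).2.2 u) y)
  have h6 := abs_add_le (∑ y ∈ cb k ((cx k q).1, (cx k q).2.1 + ix k a + 1, (cx k q).2.2 + ix k b),
      F (k + 1) y * atm (ush a b k (cx k q).2.1 (cx k q).2.2 u) y)
    (∑ y ∈ cb k ((cx k q).1, (cx k q).2.1 + ix k a + 1, (cx k q).2.2 + ix k b + 1),
      F (k + 1) y * atm (ush a b k (cx k q).2.1 (cx k q).2.2 u) y)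
  have g1 := h1 ((cx k q).2.1 + ix k a) ((cx k q).2.2 + ix k b)
  have g2 := h1 ((cx k q).2.1 + ix k a) ((cx k q).2.2 + ix k b + 1)
  have g3 := h1 ((cx k q).2.1 + ix k a + 1) ((cx k q).2.2 + ix k b)
  have g4 := h1 ((cx k q).2.1 + ix k a + 1) ((cx k q).2.2 + ix k b + 1)
  linarith

theorem bsl_mono {n : ℕ} {e e' cP cP' : ℝ} {F : ℕ → Pt → ℝ} {Q : ℕ → Pt → Prop}
    (h : BSl n e cP F Q) (he : e ≤ e') (hc : cP ≤ cP') : BSl n e' cP' F Q := by
  refine ⟨h.agree, fun x0 K hK r s => (h.pack x0 K hK r s).trans ?_, fun k hk m x y =>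
    (h.l0 k hk m x y).trans ?_, fun k hk m z y => (h.l1 k hk m z y).trans ?_,
    fun k hk m z x => (h.l2 k hk m z x).trans ?_⟩ <;> gcongr

/-- **Translation of a uniform slot.** -/
theorem us_sh {n : ℕ} {t e cP : ℝ} {F : ℕ → Pt → ℝ} (h : US n t e cP F) (a b : ℤ) :
    US n (4 * t) (16 * e) (16 * cP) (sh a b F) := by
  obtain ⟨ht, hte, hU, Q, hQ⟩ := h
  refine ⟨by linarith, by nlinarith, bun_sh ht hU a b, Qs a b Q, ?_⟩
  exact bsl_mono (bsl_sh hQ a b) (by nlinarith [sq_nonneg t]) le_rfl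

/-- **Translation of an `L²` slot.** -/
theorem es_sh {n : ℕ} {e cP : ℝ} {F : ℕ → Pt → ℝ} (h : ES n e cP F) (a b : ℤ) :
    ES n (2 * e) (16 * cP) (sh a b F) := by
  obtain ⟨he, Q, hQ⟩ := h
  exact ⟨by linarith, Qs a b Q, bsl_sh hQ a b⟩

/-! ### Paths at one `x₀` -/

/-- the path seen from the translated grid -/
def shf (a b : ℤ) (A : ℕ → ℤ → ℤ → ℝ) : ℕ → ℤ → ℤ → ℝ := fun k x y => A k (x + a) (y + b)

/-- **Translation of a path.** -/
theorem path_sh {N : ℕ} {Q : ℕ → ℤ → ℤ → Prop} {A : ℕ → ℤ → ℤ → ℝ}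
    (h : ∀ R S : ℤ, Path N R S Q A) (a b R S : ℤ) : Path N R S (Qsh a b Q) (shf a b A) := by
  intro k hk n _ m _ hq x hx y hy
  exact h (ix (N - k) (ix k (x + a))) (ix (N - k) (ix k (y + b))) k hk (ix k (x + a))
    (self_mem_iv _ _) (ix k (y + b)) (self_mem_iv _ _) (fun hQ => hq ⟨x, hx, y, hy, hQ⟩) (x + a)
    (self_mem_iv _ _) (y + b) (self_mem_iv _ _)

/-- the squares form of the packing, all roots -/
def PackS (N : ℕ) (Q : ℕ → ℤ → ℤ → Prop) (cP : ℝ) : Prop :=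
  ∀ K ≤ N, ∀ R S : ℤ, ∑ k ∈ range (K + 1), ∑ i ∈ iv (K - k) R, ∑ j ∈ iv (K - k) S,
    (if Q k i j then (4 : ℝ) ^ k else 0) ≤ cP * 4 ^ K

theorem PackS.sh {N : ℕ} {Q : ℕ → ℤ → ℤ → Prop} {cP : ℝ} (h : PackS N Q cP) (a b : ℤ) :
    PackS N (Qsh a b Q) (16 * cP) := fun K hK R S =>
  pack_sum a b (range (K + 1)) (fun k hk => by rw [mem_range] at hk; omega) (h K hK) R S

theorem PackS.packQ {N : ℕ} {Q : ℕ → ℤ → ℤ → Prop} {cP : ℝ} (h : PackS N Q cP) (R S : ℤ) :
    PackQ N R S Q cP := fun K hK n' m' => (H769.aff_filter_le Q n' m').trans (h K hK n' m')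

/-- **Packing of the translated path.** -/
theorem pack_sh {N : ℕ} {Q : ℕ → ℤ → ℤ → Prop} {cP : ℝ} (h : PackS N Q cP) (a b R S : ℤ) :
    PackQ N R S (Qsh a b Q) (16 * cP) := (h.sh a b).packQ R S

/-! ### The `S4` energy of a translated square -/

theorem s4_eq_s4k (k : ℕ) (F : ℤ → ℤ → ℝ) (n m : ℤ) : s4 k k F n m = s4k (iv k n) (iv k m) F :=
  H769.s4_avg ..

/-- cut and translation in the first variable -/
theorem s4k_cut1 (B B' C : Finset ℤ) (hc : B.card = B'.card) (a : ℤ) (M : ℤ → ℤ → ℝ) :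
    s4k B C (fun x y => if x + a ∈ B' then M (x + a) y else 0) ≤ s4k B' C M := by
  unfold s4k avg
  rw [hc]
  refine mul_le_mul_of_nonneg_left ?_ (by positivity)
  have e1 : ∀ x c, ((C.card : ℝ)⁻¹ * ∑ y ∈ C, (if x + a ∈ B' then M (x + a) y else 0) *
      (if c + a ∈ B' then M (c + a) y else 0)) ^ 2 =
      if x + a ∈ B' then (if c + a ∈ B' then
        ((C.card : ℝ)⁻¹ * ∑ y ∈ C, M (x + a) y * M (c + a) y) ^ 2 else 0) else 0 := by
    intro x c
    by_cases hx : x + a ∈ B'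
    · by_cases hcc : c + a ∈ B'
      · simp only [if_pos hx, if_pos hcc]
      · simp only [if_neg hcc, mul_zero, sum_const_zero, if_pos hx]
        norm_num
    · simp only [if_neg hx, zero_mul, sum_const_zero, mul_zero]
      norm_num
  simp only [e1]
  have e2 : ∀ x ∈ B, (B'.card : ℝ)⁻¹ * ∑ c ∈ B, (if x + a ∈ B' then (if c + a ∈ B' then
      ((C.card : ℝ)⁻¹ * ∑ y ∈ C, M (x + a) y * M (c + a) y) ^ 2 else 0) else 0) ≤
      (if x + a ∈ B' then (B'.card : ℝ)⁻¹ * ∑ c ∈ B',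
        ((C.card : ℝ)⁻¹ * ∑ y ∈ C, M (x + a) y * M c y) ^ 2 else 0) := by
    intro x _
    by_cases hx : x + a ∈ B'
    · simp only [if_pos hx]
      refine mul_le_mul_of_nonneg_left ?_ (by positivity)
      exact sum_tr_le B B' a (h := fun c => ((C.card : ℝ)⁻¹ * ∑ y ∈ C, M (x + a) y * M c y) ^ 2)
        fun _ => sq_nonneg _
    · simp only [if_neg hx, sum_const_zero, mul_zero, le_refl]
  refine (sum_le_sum e2).trans ?_
  exact sum_tr_le B B' a (h := fun x => (B'.card : ℝ)⁻¹ * ∑ c ∈ B',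
    ((C.card : ℝ)⁻¹ * ∑ y ∈ C, M x y * M c y) ^ 2)
    fun _ => mul_nonneg (by positivity) (sum_nonneg fun _ _ => sq_nonneg _)

/-- cut and translation in both variables -/
theorem s4k_cut (B B' C C' : Finset ℤ) (hB : B.card = B'.card) (hC : C.card = C'.card) (a b : ℤ)
    (M : ℤ → ℤ → ℝ) :
    s4k B C (fun x y => if x + a ∈ B' then (if y + b ∈ C' then M (x + a) (y + b) else 0) else 0) ≤
      s4k B' C' M := by
  refine (s4k_cut1 B B' C hB a fun x y => if y + b ∈ C' then M x (y + b) else 0).trans ?_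
  rw [s4k_swap, s4k_swap B' C' M]
  exact s4k_cut1 C C' B' hC b fun y x => M x y

/-- four summands -/
theorem s4k_four (B C : Finset ℤ) (P Q P' Q' : ℤ → ℤ → ℝ) :
    s4k B C (fun x y => P x y + Q x y + (P' x y + Q' x y)) ≤
      64 * (s4k B C P + s4k B C Q + (s4k B C P' + s4k B C Q')) := by
  have h1 := s4k_add_le B C (fun x y => P x y + Q x y) (fun x y => P' x y + Q' x y)
  have h2 := s4k_add_le B C P Q
  have h3 := s4k_add_le B C P' Q'
  linarith

/-- **The `S4` energy of a translated square.** -/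
theorem s4_sh (k : ℕ) (a b : ℤ) (G : ℤ → ℤ → ℝ) (n m : ℤ) :
    s4 k k (fun x y => G (x + a) (y + b)) n m ≤
      64 * ∑ i ∈ two (n + ix k a), ∑ j ∈ two (m + ix k b), s4 k k G i j := by
  rw [s4_eq_s4k]
  simp only [s4_eq_s4k, sum_two]
  set B := iv k n
  set C := iv k m
  have hB : ∀ i, B.card = (iv k i).card := fun i => by rw [card_iv, card_iv]
  have hC : ∀ j, C.card = (iv k j).card := fun j => by rw [card_iv, card_iv]
  have hne : ∀ (c x : ℤ), x ∈ iv k c → x ∉ iv k (c + 1) := by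
    intro c x h1 h2
    have := (mem_iv.1 h1).symm.trans (mem_iv.1 h2)
    omega
  have e1 : s4k B C (fun x y => G (x + a) (y + b)) = s4k B C (fun x y =>
      (if x + a ∈ iv k (n + ix k a) then (if y + b ∈ iv k (m + ix k b) then
        G (x + a) (y + b) else 0) else 0) +
      (if x + a ∈ iv k (n + ix k a) then (if y + b ∈ iv k (m + ix k b + 1) then
        G (x + a) (y + b) else 0) else 0) +
      ((if x + a ∈ iv k (n + ix k a + 1) then (if y + b ∈ iv k (m + ix k b) then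
        G (x + a) (y + b) else 0) else 0) +
      (if x + a ∈ iv k (n + ix k a + 1) then (if y + b ∈ iv k (m + ix k b + 1) then
        G (x + a) (y + b) else 0) else 0))) := by
    refine s4k_congr fun x hx y hy => ?_
    have hx1 := ix_add k x a
    rw [mem_iv.1 hx] at hx1
    have hy1 := ix_add k y b
    rw [mem_iv.1 hy] at hy1
    rcases hx1 with hx1 | hx1
    · have x1 := mem_iv.2 hx1
      rw [if_pos x1, if_pos x1, if_neg (hne _ _ x1), if_neg (hne _ _ x1)]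
      rcases hy1 with hy1 | hy1
      · have y1 := mem_iv.2 hy1
        rw [if_pos y1, if_neg (hne _ _ y1)]
        ring
      · have y1 := mem_iv.2 hy1
        rw [if_pos y1, if_neg (fun h => hne _ _ h y1)]
        ring
    · have x1 := mem_iv.2 hx1
      rw [if_pos x1, if_pos x1, if_neg (fun h => hne _ _ h x1), if_neg (fun h => hne _ _ h x1)]
      rcases hy1 with hy1 | hy1
      · have y1 := mem_iv.2 hy1
        rw [if_pos y1, if_neg (hne _ _ y1)]
        ring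
      · have y1 := mem_iv.2 hy1
        rw [if_pos y1, if_neg (fun h => hne _ _ h y1)]
        ring
  rw [e1]
  refine (s4k_four B C _ _ _ _).trans ?_
  have h1 := s4k_cut B (iv k (n + ix k a)) C (iv k (m + ix k b)) (hB _) (hC _) a b G
  have h2 := s4k_cut B (iv k (n + ix k a)) C (iv k (m + ix k b + 1)) (hB _) (hC _) a b G
  have h3 := s4k_cut B (iv k (n + ix k a + 1)) C (iv k (m + ix k b)) (hB _) (hC _) a b G
  have h4 := s4k_cut B (iv k (n + ix k a + 1)) C (iv k (m + ix k b + 1)) (hB _) (hC _) a b G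
  linarith

/-- the `L²` sum of a translated square -/
theorem sqb_sh (k : ℕ) (a b : ℤ) (G : ℤ → ℤ → ℝ) (n m : ℤ) :
    sqb k n m (fun x y => G (x + a) (y + b)) ≤
      ∑ i ∈ two (n + ix k a), ∑ j ∈ two (m + ix k b), sqb k i j G := by
  unfold sqb
  have h1 : ∀ y ∈ iv k m, ∑ x ∈ iv k n, G (x + a) (y + b) ^ 2 ≤
      (fun y' => ∑ i ∈ two (n + ix k a), ∑ x ∈ iv k i, G x y' ^ 2) (y + b) := fun y _ =>
    sum_cell_le k n a (g := fun x => G x (y + b) ^ 2) fun _ => sq_nonneg _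
  refine (sum_le_sum h1).trans ?_
  refine (sum_cell_le k m b (g := fun y' => ∑ i ∈ two (n + ix k a), ∑ x ∈ iv k i, G x y' ^ 2)
    fun _ => sum_nonneg fun _ _ => sum_nonneg fun _ _ => sq_nonneg _).trans (le_of_eq ?_)
  have e : ∀ j ∈ two (m + ix k b), ∑ y ∈ iv k j, ∑ i ∈ two (n + ix k a), ∑ x ∈ iv k i, G x y ^ 2 =
      ∑ i ∈ two (n + ix k a), ∑ y ∈ iv k j, ∑ x ∈ iv k i, G x y ^ 2 := fun j _ => sum_comm
  rw [sum_congr rfl e, sum_comm]

end

end Vale.Agent.P141.H210
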