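import Vale.Agent.P141.H210.GapShP
import Vale.Agent.P141.H677.FDb

/-!
# P141, line (A): the static pair on the shifted grids from the bundle of the flow part

* `gapPt_FD` : `GapPt` from `H677.Sk.FDs`;
* `eP_FD` : the gap energy `H58.eP` of the pair;
* `gp_grid`, `gp_grid_FD` : the same on one plane of one grid, in the letters of `H747.sG`.
-/

namespace Vale.Agent.P141.H210

open Finset Matrix
open Vale.Agent.P141.PL (Pt iv ix mem_iv ix_ix cb cx)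
open Vale.Agent.P141.PL.H804 (bx3)
open Vale.Agent.P141.PL.H315 (Tri)
open Vale.Agent.P141.H103 (GW gK)
open Vale.Agent.P141.H677 (rt rv)
open Vale.Agent.P141.H677.Sk
open Vale.Agent.P141.H747 (shA shB sG)
open Vale.Agent.P141.H795 (E8 ys)
open Vale.Agent.P141.H652 (gpT gpT_nonneg gp_scale)

noncomputable section

open scoped Classical

variable {ι : Type} [Fintype ι] [DecidableEq ι]

/-- the common bound of the own energies -/
def gFD (q : H401.Num) (s : ℝ) : ℝ :=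
  q.CD * (q.t ^ (2 - 2 * q.c - 2 * q.d) * s ^ (3 / 2 : ℝ))

theorem gFD_pos {q : H401.Num} {s : ℝ} (hCD : 0 < q.CD) (ht : 0 < q.t) (hs : 0 < s) :
    0 < gFD q s :=
  mul_pos hCD (mul_pos (Real.rpow_pos_of_pos ht _) (Real.rpow_pos_of_pos hs _))

/-- **The data of the pair from the bundle.** -/
theorem gapPt_FD {q : H401.Num} {n : ℕ} {ez : ℝ} {F1 F2 F3 : ℕ → Pt → ℝ} {K : ℕ} {x : Pt}
    {s r : ℝ} {U : Tri} {g : ℤ → ℤ → ℝ} {u v : ℤ → ℤ → ι → ℝ} {A : FamA} {b C : FamV ι}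
    {Q1 Q2 Q3 : ℕ → Pt → Prop} {v' : ℤ → ℤ → ι → ℝ}
    (h : FDs q n ez F1 F2 F3 K x s r U g u v A b C Q1 Q2 Q3 v') (hK : K ≤ n) (hCD : 0 < q.CD)
    (ht : 0 < q.t) (hs : 0 < s) (t : ℤ) :
    GapPt K (ix K x.2.2) (ix K x.2.1) (ix K x.1) t A b (H401.qA q U K Q1) (H401.qB q U K Q3)
      (gFD q s) (gFD q s) (q.cP + 2) where
  agA x₀ k hk n' _ m' _ hq z hz y hy := h.agA x₀ k hk n' m' hq z hz y hy
  agB x₀ k hk n' _ m' _ hq z hz y hy := h.agb x₀ k hk n' m' hq z hz y hy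
  zA := h.z0A
  zB := h.z0b
  gA0 := gFD_pos hCD ht hs
  gB0 := gFD_pos hCD ht hs
  capA k hk i _ n' hn m' hm := h.ownA k hk.le (k + 1) (Or.inr ⟨rfl, hk⟩) i n' hn m' hm
  capB k hk i _ n' hn m' hm := by
    have h1 := h.ownb k hk.le (k + 1) (Or.inr ⟨rfl, hk⟩) i n' hn m' hm
    simpa only [H103.QK, inv_one, gFD] using h1
  packA x₀ _ := H576.QD_root' (H576.Dd_sst q.Lm U.2.2 K) h.B1 hK _ _ x₀
  packB x₀ _ := H576.QD_root (H576.Dd_sst q.Lm U.1 K) h.B3 hK _ _ x₀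

/-- **The gap energy of the pair on the shifted grids, from the bundle.** -/
theorem eP_FD {q : H401.Num} {n : ℕ} {ez : ℝ} {F1 F2 F3 : ℕ → Pt → ℝ} {K : ℕ} {x : Pt}
    {s r : ℝ} {U : Tri} {g : ℤ → ℤ → ℝ} {u v : ℤ → ℤ → ι → ℝ} {A : FamA} {b C : FamV ι}
    {Q1 Q2 Q3 : ℕ → Pt → Prop} {v' : ℤ → ℤ → ι → ℝ}
    (h : FDs q n ez F1 F2 F3 K x s r U g u v A b C Q1 Q2 Q3 v') (hK : K ≤ n) (hCD : 0 < q.CD)
    (ht : 0 < q.t) (hs : 0 < s) (h' : Pt) :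
    H58.eP K (cx K x) A b h' ≤ 1345536 * gFD q s * ((q.cP + 2) * 8 ^ K) := by
  have h1 := eP_le (M := cx K x) (fun t _ => gapPt_FD h hK hCD ht hs t) h'
  rwa [Real.sqrt_mul_self (gFD_pos hCD ht hs).le] at h1

/-! ### One plane of one grid -/

/-- **The gap energy on one plane of one grid.** -/
theorem gp_grid {K : ℕ} {M : Pt} {A : FamA} {b : FamV ι} {qA qB : ℕ → ℤ → ℤ → ℤ → Prop}
    {gA gB cP : ℝ} (f : ∀ t ∈ rt M, GapPt K M.2.2 M.2.1 M.1 t A b qA qB gA gB cP) (s : Pt)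
    {j : ℤ} (hj : j ∈ Icc (0 : ℤ) 2) (e : Pt) :
    ∑ t ∈ rt M, ∑ x0 ∈ iv K t, ∑ k ∈ Icc 1 K, ∑ m ∈ sG K M (-x0) s j e k,
      gpT (shA K M s (A x0) k) (shB K M s (b x0) k) k m ≤
      56064 * √(gA * gB) * (cP * 8 ^ K) := by
  have h1 : ∀ t ∈ rt M, ∑ x0 ∈ iv K t, ∑ k ∈ Icc 1 K, ∑ m ∈ sG K M (-x0) s j e k,
      gpT (shA K M s (A x0) k) (shB K M s (b x0) k) k m ≤
      18688 * √(gA * gB) * (cP * 8 ^ K) := by
    intro t ht
    refine le_trans (sum_le_sum fun x0 _ => ?_) ((f t ht).gap_sh s.1 s.2.1 s.2.2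
      (c := fun x0 k => ix k (ys (-x0) s) - j) (fun x0 => H795.Pl_grid (-x0) s hj)
      (c0 := fun k n => -n + ix k (3 - s.1 - s.2.1 - s.2.2 - 2 ^ k + 1) - j)
      (fun k x => plane_two s j k x) (M - e).2.2 (M - e).2.1 (M - e).1)
    have e1 : ∀ g : ℕ → ℝ, ∑ k ∈ Icc 1 K, g k = ∑ k ∈ range K, g (k + 1) := by
      intro g
      rw [range_eq_Ico, sum_Ico_add' g 0 K 1]
      rfl
    rw [e1]
    refine sum_le_sum fun k _ => ?_
    exact gp_scale (shA K M s (A x0) (k + 1)) (shB K M s (b x0) (k + 1)) (N := K)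
      (R := rv (M - e)) (k := k + 1) (c := ix (k + 1) (ys (-x0) s) - j)
      (s := sG K M (-x0) s j e (k + 1)) Subset.rfl
  refine (sum_le_sum h1).trans ?_
  rw [sum_const, nsmul_eq_mul]
  have h2 : (rt M).card = 3 := by
    unfold H677.rt
    rw [Int.card_Icc]
    omega
  rw [h2]
  refine le_of_eq ?_
  push_cast
  ring

/-- **The gap energy on one plane of one grid, from the bundle.** -/
theorem gp_grid_FD {q : H401.Num} {n : ℕ} {ez : ℝ} {F1 F2 F3 : ℕ → Pt → ℝ} {K : ℕ} {x : Pt}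
    {s r : ℝ} {U : Tri} {g : ℤ → ℤ → ℝ} {u v : ℤ → ℤ → ι → ℝ} {A : FamA} {b C : FamV ι}
    {Q1 Q2 Q3 : ℕ → Pt → Prop} {v' : ℤ → ℤ → ι → ℝ}
    (h : FDs q n ez F1 F2 F3 K x s r U g u v A b C Q1 Q2 Q3 v') (hK : K ≤ n) (hCD : 0 < q.CD)
    (ht : 0 < q.t) (hs : 0 < s) (h' : Pt) {j : ℤ} (hj : j ∈ Icc (0 : ℤ) 2) (e : Pt) :
    ∑ t ∈ rt (cx K x), ∑ x0 ∈ iv K t, ∑ k ∈ Icc 1 K, ∑ m ∈ sG K (cx K x) (-x0) h' j e k,
      gpT (shA K (cx K x) h' (A x0) k) (shB K (cx K x) h' (b x0) k) k m ≤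
      56064 * gFD q s * ((q.cP + 2) * 8 ^ K) := by
  have h1 := gp_grid (M := cx K x) (fun t _ => gapPt_FD h hK hCD ht hs t) h' hj e
  rwa [Real.sqrt_mul_self (gFD_pos hCD ht hs).le] at h1

end

end Vale.Agent.P141.H210
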