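import Vale.Agent.P141.H210.GramT
import Vale.Agent.P141.H210.GapTwo
import Vale.Agent.P141.H795.Grid
import Vale.Agent.P141.H652.PairI

/-!
# P141, line (A): the static pair on the shifted grids

* `cu` : a function cut to a root and seen from a translated grid;
* `GapPt` : families at every `x₀`, pointwise agreement, numbers as in `H576.GapFam`, weight one;
* `GapPt.gap_sh` : the gaps of the translated families on all nodes of planes with two values on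
  every cell of `x₀`, summed over `x₀` and the scales.
-/

namespace Vale.Agent.P141.H210

open Finset Matrix
open Vale.Agent.P141.PL (Pt iv ix mem_iv ix_ix self_mem_iv)
open Vale.Agent.P141.PL.H560 (cbs)
open Vale.Agent.P141.H103
open Vale.Agent.P141.H588G (S2 cnt S2_nonneg)
open Vale.Agent.P075 (Ix val)

noncomputable section

open scoped Classical

/-! ### Cut and translation -/

/-- cut to the root `(R, S)` and translated -/
def cu {V : Type*} [Zero V] (N : ℕ) (R S a c : ℤ) (f : ℤ → ℤ → V) (z y : ℤ) : V :=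
  if ix N (z + a) = R ∧ ix N (y + c) = S then f (z + a) (y + c) else 0

/-- cut to the root -/
def ct {V : Type*} [Zero V] (N : ℕ) (R S : ℤ) (f : ℤ → ℤ → V) (z y : ℤ) : V :=
  if ix N z = R ∧ ix N y = S then f z y else 0

theorem cu_eq {V : Type*} [Zero V] (N : ℕ) (R S a c : ℤ) (f : ℤ → ℤ → V) :
    cu N R S a c f = fun z y => ct N R S f (z + a) (y + c) := rfl

/-- the squares of the translated grid which meet an affected square of the root -/
def qs (N : ℕ) (R S a c : ℤ) (q : ℕ → ℤ → ℤ → ℤ → Prop) (k : ℕ) (x n m : ℤ) : Prop :=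
  ∃ i ∈ two (n + ix k a), ∃ j ∈ two (m + ix k c), i ∈ iv (N - k) R ∧ j ∈ iv (N - k) S ∧ q k x i j

theorem cell_root {N k : ℕ} (hk : k ≤ N) {z n : ℤ} (hz : ix k z = n) {R : ℤ} :
    n ∈ iv (N - k) R ↔ ix N z = R := by
  rw [mem_iv, ← hz, ix_ix, Nat.add_sub_cancel' hk]

/-- pointwise agreement of the translated families -/
theorem cu_agree {V : Type*} [Zero V] {N : ℕ} {R S : ℤ} {f g : ℤ → ℤ → V} {k : ℕ} (hk : k ≤ N)
    {q : ℕ → ℤ → ℤ → ℤ → Prop} {x : ℤ}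
    (h : ∀ i ∈ iv (N - k) R, ∀ j ∈ iv (N - k) S, ¬ q k x i j → ∀ z ∈ iv k i, ∀ y ∈ iv k j,
      f z y = g z y) {a c n m : ℤ} (hq : ¬ qs N R S a c q k x n m) :
    ∀ z ∈ iv k n, ∀ y ∈ iv k m, cu N R S a c f z y = cu N R S a c g z y := by
  intro z hz y hy
  unfold cu
  by_cases hr : ix N (z + a) = R ∧ ix N (y + c) = S
  · rw [if_pos hr, if_pos hr]
    have hi := (cell_root hk rfl (R := R)).2 hr.1
    have hj := (cell_root hk rfl (R := S)).2 hr.2
    refine h _ hi _ hj (fun hQ => hq ⟨_, ?_, _, ?_, hi, hj, hQ⟩) _ (self_mem_iv _ _) _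
      (self_mem_iv _ _)
    · rw [← mem_iv.1 hz]; exact ix_mem_two ..
    · rw [← mem_iv.1 hy]; exact ix_mem_two ..
  · rw [if_neg hr, if_neg hr]

/-- the number of affected translated squares -/
theorem cnt_qs {N k : ℕ} (R S R' S' a c : ℤ) (q : ℕ → ℤ → ℤ → ℤ → Prop) (x : ℤ) :
    cnt N R' S' k (qs N R S a c q k x) ≤ 4 * cnt N R S k (q k x) := by
  unfold H588G.cnt
  rw [mul_left_comm]
  refine mul_le_mul_of_nonneg_left ?_ (by positivity)
  set w : ℤ → ℤ → ℝ := fun j i => if q k x i j then 1 else 0 with hw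
  have hw0 : ∀ j i, 0 ≤ w j i := by
    intro j i; simp only [hw]; split_ifs <;> norm_num
  set A := ∑ m ∈ iv (N - k) S, ∑ n ∈ iv (N - k) R, w m n with hA
  have one : ∀ u v : ℤ, ∑ m ∈ iv (N - k) S', ∑ n ∈ iv (N - k) R',
      (if m + u ∈ iv (N - k) S then (if n + v ∈ iv (N - k) R then w (m + u) (n + v) else 0)
        else 0) ≤ A := by
    intro u v
    have h1 : ∀ m ∈ iv (N - k) S', ∑ n ∈ iv (N - k) R',
        (if m + u ∈ iv (N - k) S then (if n + v ∈ iv (N - k) R then w (m + u) (n + v) else 0)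
          else 0) ≤ (if m + u ∈ iv (N - k) S then ∑ i ∈ iv (N - k) R, w (m + u) i else 0) := by
      intro m _
      split_ifs with h
      · exact sum_tr_le _ _ v (h := fun i => w (m + u) i) fun i => hw0 _ _
      · simp
    refine (sum_le_sum h1).trans ?_
    exact sum_tr_le _ _ u (h := fun j => ∑ i ∈ iv (N - k) R, w j i) fun j =>
      sum_nonneg fun i _ => hw0 _ _
  have h2 : ∀ m ∈ iv (N - k) S', ∀ n ∈ iv (N - k) R',
      (if qs N R S a c q k x n m then (1 : ℝ) else 0) ≤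
      ∑ u ∈ two (ix k c), ∑ v ∈ two (ix k a),
        (if m + u ∈ iv (N - k) S then (if n + v ∈ iv (N - k) R then w (m + u) (n + v) else 0)
          else 0) := by
    intro m _ n _
    have g0 : ∀ u ∈ two (ix k c), ∀ v ∈ two (ix k a), (0 : ℝ) ≤
        (if m + u ∈ iv (N - k) S then (if n + v ∈ iv (N - k) R then w (m + u) (n + v) else 0)
          else 0) := by
      intro u _ v _
      split_ifs
      · exact hw0 _ _
      · exact le_rfl
      · exact le_rfl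
    split_ifs with h
    · obtain ⟨i, hi, j, hj, hiR, hjS, hq⟩ := h
      have hv : i - n ∈ two (ix k a) := by rw [mem_two] at hi ⊢; omega
      have hu : j - m ∈ two (ix k c) := by rw [mem_two] at hj ⊢; omega
      refine le_trans (le_of_eq ?_) ((single_le_sum (f := fun v => (if m + (j - m) ∈ iv (N - k) S
        then (if n + v ∈ iv (N - k) R then w (m + (j - m)) (n + v) else 0) else 0))
        (fun v hv => g0 _ hu v hv) hv).trans (single_le_sum (f := fun u => ∑ v ∈ two (ix k a),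
        (if m + u ∈ iv (N - k) S then (if n + v ∈ iv (N - k) R then w (m + u) (n + v) else 0)
          else 0)) (fun u hu => sum_nonneg fun v hv => g0 u hu v hv) hu))
      have e1 : m + (j - m) = j := by ring
      have e2 : n + (i - n) = i := by ring
      simp only [e1, e2]
      rw [if_pos hjS, if_pos hiR]
      simp only [hw]
      rw [if_pos hq]
    · exact sum_nonneg fun u hu => sum_nonneg fun v hv => g0 u hu v hv
  refine (sum_le_sum fun m hm => sum_le_sum fun n hn => h2 m hm n hn).trans ?_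
  have e : ∑ m ∈ iv (N - k) S', ∑ n ∈ iv (N - k) R', ∑ u ∈ two (ix k c), ∑ v ∈ two (ix k a),
      (if m + u ∈ iv (N - k) S then (if n + v ∈ iv (N - k) R then w (m + u) (n + v) else 0)
        else 0) =
      ∑ u ∈ two (ix k c), ∑ v ∈ two (ix k a), ∑ m ∈ iv (N - k) S', ∑ n ∈ iv (N - k) R',
      (if m + u ∈ iv (N - k) S then (if n + v ∈ iv (N - k) R then w (m + u) (n + v) else 0)
        else 0) := by
    rw [sum_congr rfl fun m _ => sum_comm]
    rw [sum_comm]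
    refine sum_congr rfl fun u _ => ?_
    rw [sum_congr rfl fun m _ => sum_comm]
    rw [sum_comm]
  rw [e]
  refine (sum_le_sum fun u _ => sum_le_sum fun v _ => one u v).trans (le_of_eq ?_)
  simp only [sum_two]
  ring

section vec

variable {κ : Type*} [Fintype κ]

/-- energy of the cut function on a cell -/
theorem SS_ct {N k : ℕ} (hk : k ≤ N) (R S i j : ℤ) (b : ℤ → ℤ → κ → ℝ) :
    SS (iv k i) (iv k j) (ct N R S b) =
      if i ∈ iv (N - k) R ∧ j ∈ iv (N - k) S then SS (iv k i) (iv k j) b else 0 := by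
  split_ifs with h
  · refine SS_congr fun x hx y hy => ?_
    unfold ct
    rw [if_pos ⟨(cell_root hk (mem_iv.1 hx)).1 h.1, (cell_root hk (mem_iv.1 hy)).1 h.2⟩]
  · refine SS_zero fun x hx y hy => ?_
    unfold ct
    rw [if_neg]
    exact fun h' => h ⟨(cell_root hk (mem_iv.1 hx)).2 h'.1, (cell_root hk (mem_iv.1 hy)).2 h'.2⟩

variable [DecidableEq κ]

/-- **The energy of a translated cut square.** -/
theorem S2_cu {N k : ℕ} (hk : k ≤ N) (R S a c n m : ℤ) (b : ℤ → ℤ → κ → ℝ) :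
    S2 (QK (cu N R S a c b) (fun _ _ _ => 1) k k n m) ≤
      4 * ∑ i ∈ two (n + ix k a), ∑ j ∈ two (m + ix k c),
        (if i ∈ iv (N - k) R ∧ j ∈ iv (N - k) S then S2 (QK b (fun _ _ _ => 1) k k i j) else 0) := by
  rw [S2_QK_one, cu_eq]
  have h := mul_le_mul_of_nonneg_left (SS_sh k n m a c (ct N R S b))
    (by positivity : (0 : ℝ) ≤ ((4 : ℝ) ^ k)⁻¹ ^ 2)
  refine h.trans (le_of_eq ?_)
  rw [mul_left_comm]
  congr 1
  rw [mul_sum]
  refine sum_congr rfl fun i _ => ?_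
  rw [mul_sum]
  refine sum_congr rfl fun j _ => ?_
  rw [SS_ct hk, S2_QK_one]
  split_ifs
  · rfl
  · rw [mul_zero]

theorem S2_QK_nonneg (b : ℤ → ℤ → κ → ℝ) (k : ℕ) (n m : ℤ) :
    0 ≤ S2 (QK b (fun _ _ _ => 1) k k n m) := by
  rw [S2_QK_one]
  exact mul_nonneg (by positivity) (SS_nonneg _ _ _)

theorem un_cu (N : ℕ) (R S a c : ℤ) (A : ℤ → ℤ → ℝ) :
    un (cu N R S a c A) = cu N R S a c (un A) := by
  funext z y u
  unfold un cu
  split_ifs
  · rfl
  · rfl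

theorem S2_PA (A : ℤ → ℤ → ℝ) (k : ℕ) (n m : ℤ) :
    S2 (PA A k k n m) = S2 (QK (un A) (fun _ _ _ => 1) k k n m) := by
  rw [PA_eq]

/-- the cap of a translated family -/
theorem cap_cu {N k : ℕ} (hk : k ≤ N) {R S : ℤ} {X : Finset ℤ} {b : ℤ → ℤ → ℤ → κ → ℝ} {g : ℝ}
    (hg : 0 ≤ g)
    (h : ∀ i ∈ iv (N - k) R, ∀ j ∈ iv (N - k) S,
      ∑ x ∈ X, S2 (QK (b x) (fun _ _ _ => 1) k k i j) ≤ g) (a c n m : ℤ) :
    ∑ x ∈ X, S2 (QK (cu N R S a c (b x)) (fun _ _ _ => 1) k k n m) ≤ 16 * g := by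
  refine (sum_le_sum fun x _ => S2_cu hk R S a c n m (b x)).trans ?_
  rw [← mul_sum, sum_comm]
  have h1 : ∀ i ∈ two (n + ix k a), ∑ x ∈ X, ∑ j ∈ two (m + ix k c),
      (if i ∈ iv (N - k) R ∧ j ∈ iv (N - k) S then S2 (QK (b x) (fun _ _ _ => 1) k k i j)
        else 0) ≤ 2 * g := by
    intro i _
    rw [sum_comm]
    have h2 : ∀ j ∈ two (m + ix k c), ∑ x ∈ X,
        (if i ∈ iv (N - k) R ∧ j ∈ iv (N - k) S then S2 (QK (b x) (fun _ _ _ => 1) k k i j)
          else 0) ≤ g := by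
      intro j _
      split_ifs with h3
      · exact h i h3.1 j h3.2
      · simpa using hg
    refine (sum_le_sum h2).trans (le_of_eq ?_)
    rw [sum_two]
    ring
  refine (mul_le_mul_of_nonneg_left (sum_le_sum h1) (by norm_num)).trans (le_of_eq ?_)
  rw [sum_two]
  ring

/-- congruence of the Gram matrices -/
theorem QK_congr {b b' : ℤ → ℤ → κ → ℝ} {k : ℕ} {n m : ℤ} (K : ℤ → ℕ → ℤ → Matrix κ κ ℝ)
    (h : ∀ x ∈ iv k n, ∀ y ∈ iv k m, b x y = b' x y) : QK b K k k n m = QK b' K k k n m := by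
  ext j j'
  unfold H103.QK H103.QW
  congr 1
  refine sum_congr rfl fun x hx => ?_
  rw [h x hx _ (mem_iv_val k m j), h x hx _ (mem_iv_val k m j')]

theorem PA_congr {A A' : ℤ → ℤ → ℝ} {k : ℕ} {n m : ℤ}
    (h : ∀ x ∈ iv k n, ∀ y ∈ iv k m, A x y = A' x y) : PA A k k n m = PA A' k k n m := by
  rw [PA_eq, PA_eq]
  refine QK_congr _ fun x hx y hy => ?_
  funext u
  exact h x hx y hy

theorem QK_zero (K : ℤ → ℕ → ℤ → Matrix κ κ ℝ) {b : ℤ → ℤ → κ → ℝ} {k : ℕ} {n m : ℤ}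
    (h : ∀ x ∈ iv k n, ∀ y ∈ iv k m, b x y = 0) : QK b K k k n m = 0 := by
  ext j j'
  unfold H103.QK H103.QW
  rw [sum_eq_zero fun x hx => by rw [h x hx _ (mem_iv_val k m j), zero_dotProduct], mul_zero]
  rfl

theorem PA_zero {A : ℤ → ℤ → ℝ} {k : ℕ} {n m : ℤ}
    (h : ∀ x ∈ iv k n, ∀ y ∈ iv k m, A x y = 0) : PA A k k n m = 0 := by
  rw [PA_eq]
  refine QK_zero _ fun x hx y hy => ?_
  funext u
  exact h x hx y hy

/-! ### The data -/

/-- Families at every `x₀` : pointwise agreement off the killed squares, numbers of the killed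
squares summed over a cell of `x₀`. -/
structure GapPt (N : ℕ) (R S T t₀ : ℤ) (A : ℤ → ℕ → ℤ → ℤ → ℝ) (b : ℤ → ℕ → ℤ → ℤ → κ → ℝ)
    (qA qB : ℕ → ℤ → ℤ → ℤ → Prop) (gA gB cP : ℝ) : Prop where
  agA : ∀ x₀ k, k < N → ∀ n ∈ iv (N - k) R, ∀ m ∈ iv (N - k) S, ¬ qA k (ix k x₀) n m →
    ∀ z ∈ iv k n, ∀ y ∈ iv k m, A x₀ (k + 1) z y = A x₀ k z y
  agB : ∀ x₀ k, k < N → ∀ n ∈ iv (N - k) T, ∀ m ∈ iv (N - k) S, ¬ qB k (ix k x₀) n m →
    ∀ x ∈ iv k n, ∀ y ∈ iv k m, b x₀ (k + 1) x y = b x₀ k x y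
  zA : ∀ x₀ z y, A x₀ 0 z y = 0
  zB : ∀ x₀ x y, b x₀ 0 x y = 0
  gA0 : 0 < gA
  gB0 : 0 < gB
  capA : ∀ k < N, ∀ i ∈ iv (N - k) t₀, ∀ n ∈ iv (N - k) R, ∀ m ∈ iv (N - k) S,
    ∑ x₀ ∈ iv k i, S2 (PA (A x₀ (k + 1)) k k n m) ≤ gA * 2 ^ k
  capB : ∀ k < N, ∀ i ∈ iv (N - k) t₀, ∀ n ∈ iv (N - k) T, ∀ m ∈ iv (N - k) S,
    ∑ x₀ ∈ iv k i, S2 (QK (b x₀ (k + 1)) (fun _ _ _ => 1) k k n m) ≤ gB * 2 ^ k
  packA : ∀ x₀ ∈ iv N t₀, ∑ k ∈ range N, cnt N R S k (qA k (ix k x₀)) ≤ cP * 4 ^ N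
  packB : ∀ x₀ ∈ iv N t₀, ∑ k ∈ range N, cnt N T S k (qB k (ix k x₀)) ≤ cP * 4 ^ N

variable {N : ℕ} {R S T t₀ : ℤ} {A : ℤ → ℕ → ℤ → ℤ → ℝ} {b : ℤ → ℕ → ℤ → ℤ → κ → ℝ}
  {qA qB : ℕ → ℤ → ℤ → ℤ → Prop} {gA gB cP : ℝ}

/-- the packing of the translated squares -/
theorem pack_qs {T₀ : ℤ} {q : ℕ → ℤ → ℤ → ℤ → Prop}
    (h : ∀ x₀ ∈ iv N t₀, ∑ k ∈ range N, cnt N T₀ S k (q k (ix k x₀)) ≤ cP * 4 ^ N)
    (a c R' S' : ℤ) : ∀ x₀ ∈ iv N t₀,
      ∑ k ∈ range N, cnt N R' S' k (qs N T₀ S a c q k (ix k x₀)) ≤ 4 * cP * 4 ^ N := by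
  intro x₀ hx
  refine (sum_le_sum fun k _ => cnt_qs T₀ S R' S' a c q (ix k x₀)).trans ?_
  rw [← mul_sum, mul_assoc]
  exact mul_le_mul_of_nonneg_left (h x₀ hx) (by norm_num)

/-- **The static pair on the translated grid**: `a₁, a₂, a₃` the translations of `x₁, x₂, x₃`. -/
theorem GapPt.gap_sh (f : GapPt N R S T t₀ A b qA qB gA gB cP) (a₁ a₂ a₃ : ℤ)
    {c : ℤ → ℕ → ℤ} (hc : ∀ x, PL.H588.Pl (c x)) {c0 : ℕ → ℤ → ℤ}
    (hcl : ∀ k x, c x k = c0 k (ix k x) ∨ c x k = c0 k (ix k x) + 1) (R' S' T' : ℤ) :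
    ∑ x₀ ∈ iv N t₀, ∑ k ∈ range N, GW N R' S' T' (k + 1) (c x₀ (k + 1))
        (gK (cu N R S a₃ a₂ (A x₀ (k + 1))) (cu N T S a₁ a₂ (b x₀ (k + 1))) (fun _ _ _ => 1)
          (k + 1)) ≤
      18688 * √(gA * gB) * (cP * 8 ^ N) := by
  have one : ∀ _x : ℤ, H420.Tr 1 N (fun _ _ => 0) (fun _ _ => (1 : Matrix κ κ ℝ)) :=
    fun _ => H652.tr_one N
  have h := gapSum2 hc hcl (R := R') (S := S') (T := T') (t₀ := t₀)
    (P := fun x₀ k => PA (cu N R S a₃ a₂ (A x₀ k)) k)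
    (P' := fun x₀ k => PA (cu N R S a₃ a₂ (A x₀ (k + 1))) k)
    (Q := fun x₀ k => QK (cu N T S a₁ a₂ (b x₀ k)) (fun _ _ _ => 1) k)
    (Q' := fun x₀ k => QK (cu N T S a₁ a₂ (b x₀ (k + 1))) (fun _ _ _ => 1) k)
    (g := fun x₀ k => gK (cu N R S a₃ a₂ (A x₀ (k + 1))) (cu N T S a₁ a₂ (b x₀ (k + 1)))
      (fun _ _ _ => 1) (k + 1))
    (qA := qs N R S a₃ a₂ qA) (qB := qs N T S a₁ a₂ qB)
    (fun _ k _ => PA_out N k _) (fun _ k _ => QK_out N k _ _) (fun _ k _ => PA_out N k _)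
    (fun _ k _ => QK_out N k _ _) (fun _ k a n m => PA_psd _ k a n m)
    (fun _ k a n m => QK_psd one _ k a n m) (fun _ k a n m => PA_psd _ k a n m)
    (fun _ k a n m => QK_psd one _ k a n m)
    (fun x k hk n _ m _ hq => PA_congr (cu_agree hk.le (fun i hi j hj hQ => f.agA x k hk i hi j hj hQ)
      hq))
    (fun x k hk n _ m _ hq => QK_congr _ (cu_agree hk.le
      (fun i hi j hj hQ => f.agB x k hk i hi j hj hQ) hq))
    (fun _ _ hk n n' m => PQ_mid one hk _ _ n n' m)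
    (fun _ _ hk a _ _ => PA_own hk R' S' _ a) (fun _ _ hk a _ _ => QK_own one hk T' S' _ a)
    (fun x n m => PA_zero fun z _ y _ => by
      unfold cu; split_ifs; exacts [f.zA x _ _, rfl])
    (fun x n m => QK_zero _ fun z _ y _ => by
      unfold cu; split_ifs; exacts [f.zB x _ _, rfl])
    (gA := 16 * gA) (gB := 16 * gB) (cP := 4 * cP)
    (mul_pos (by norm_num) f.gA0) (mul_pos (by norm_num) f.gB0)
    (fun k hk i hi n _ m _ => by
      simp only [S2_PA, un_cu]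
      refine (cap_cu hk.le (mul_nonneg f.gA0.le (by positivity)) (g := gA * 2 ^ k)
        (b := fun x => un (A x (k + 1))) (fun i' hi' j' hj' => ?_) a₃ a₂ n m).trans
        (le_of_eq (by ring))
      have := f.capA k hk i hi i' hi' j' hj'
      simpa only [S2_PA] using this)
    (fun k hk i hi n _ m _ => by
      refine (cap_cu hk.le (mul_nonneg f.gB0.le (by positivity)) (g := gB * 2 ^ k)
        (b := fun x => b x (k + 1)) (fun i' hi' j' hj' => f.capB k hk i hi i' hi' j' hj')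
        a₁ a₂ n m).trans (le_of_eq (by ring)))
    (pack_qs f.packA a₃ a₂ R' S') (pack_qs f.packB a₁ a₂ T' S')
  refine h.trans (le_of_eq ?_)
  have e : √(16 * gA * (16 * gB)) = 16 * √(gA * gB) := by
    have : 16 * gA * (16 * gB) = 16 ^ 2 * (gA * gB) := by ring
    rw [this, Real.sqrt_mul (by norm_num), Real.sqrt_sq (by norm_num)]
  rw [e]
  ring

end vec

end

end Vale.Agent.P141.H210
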