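import Vale.Agent.P141.H210.GapSh
import Vale.Agent.P141.H58.PSh

/-!
# P141, line (A): the gap energy of the pair on the shifted grids

* `plane_two` : the planes of the translated grids have two values on a cell of `x₀`;
* `gp_nS` : the nodes of `H58.nS` inside the gap energy of `H103`;
* `eP_le` : `H58.eP` of a pair with the data `GapPt`.
-/

namespace Vale.Agent.P141.H210

open Finset Matrix
open Vale.Agent.P141.PL (Pt iv ix mem_iv ix_ix cb)
open Vale.Agent.P141.PL.H560 (cbs)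
open Vale.Agent.P141.PL.H804 (bx3)
open Vale.Agent.P141.H103 (GW gK)
open Vale.Agent.P141.H677 (rt rv)
open Vale.Agent.P141.H677.Sk
open Vale.Agent.P141.H795 (E8 ys)
open Vale.Agent.P141.H58 (cuA cuB nS gpS eP)
open Vale.Agent.P141.H652 (gpT gpT_nonneg gp_scale)

noncomputable section

open scoped Classical

/-- the planes of a translated grid have two values on a cell of `x₀` -/
theorem plane_two (s : Pt) (j : ℤ) (k : ℕ) (x : ℤ) :
    ix k (ys (-x) s) - j =
      (-(ix k x) + ix k (3 - s.1 - s.2.1 - s.2.2 - 2 ^ k + 1) - j) ∨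
    ix k (ys (-x) s) - j =
      (-(ix k x) + ix k (3 - s.1 - s.2.1 - s.2.2 - 2 ^ k + 1) - j) + 1 := by
  have d0 : (0 : ℤ) < 2 ^ k := by positivity
  set w : ℤ := 3 - s.1 - s.2.1 - s.2.2 with hw
  have e0 : ys (-x) s = (w - x % 2 ^ k) + 2 ^ k * (-(x / 2 ^ k)) := by
    have h := Int.emod_add_mul_ediv x (2 ^ k)
    unfold H795.ys
    rw [hw]
    linarith
  have e1 : ix k (ys (-x) s) = (w - x % 2 ^ k) / 2 ^ k + -(ix k x) := by
    rw [e0]
    unfold PL.ix
    exact Int.add_mul_ediv_left _ _ d0.ne'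
  have h1 : (w - 2 ^ k + 1) / 2 ^ k ≤ (w - x % 2 ^ k) / 2 ^ k := by
    refine Int.ediv_le_ediv d0 ?_
    have := Int.emod_lt_of_pos x d0
    linarith
  have h2 : (w - x % 2 ^ k) / 2 ^ k ≤ (w - 2 ^ k + 1) / 2 ^ k + 1 := by
    have e2 : (w - 2 ^ k + 1) / 2 ^ k + 1 = (w - 2 ^ k + 1 + 1 * 2 ^ k) / 2 ^ k :=
      (Int.add_mul_ediv_right _ _ d0.ne').symm
    rw [e2]
    refine Int.ediv_le_ediv d0 ?_
    have := Int.emod_nonneg x d0.ne'
    linarith
  have e3 : ix k (w - 2 ^ k + 1) = (w - 2 ^ k + 1) / 2 ^ k := rfl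
  rw [e1, e3]
  omega

variable {ι : Type} [Fintype ι] [DecidableEq ι]

/-- the nodes of one scale, one plane, one root -/
theorem gp_nS (K : ℕ) (M : Pt) (c : ℤ) (k : ℕ) (s : Pt) (j : ℤ) (e : Pt) (A : ℤ → ℤ → ℝ)
    (b : ℤ → ℤ → ι → ℝ) :
    ∑ m ∈ nS K M c k s j e, gpT A b k (rv m) ≤
      GW K (M - e).2.2 (M - e).2.1 (M - e).1 k (ix k (ys c s) - j)
        (gK A b (fun _ _ _ => (1 : Matrix ι ι ℝ)) k) := by
  have h := gp_scale A b (N := K) (R := rv (M - e)) (k := k) (c := ix k (ys c s) - j)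
    (s := (nS K M c k s j e).image rv) ?_
  · rw [sum_image] at h
    · exact h
    · intro x _ y _ hxy
      rw [← H677.rv_rv x, hxy, H677.rv_rv]
  · intro m hm
    rw [mem_image] at hm
    obtain ⟨m', h1, rfl⟩ := hm
    unfold H58.nS at h1
    rw [mem_filter] at h1
    unfold PL.H804.bx3
    rw [mem_filter]
    obtain ⟨h2, h3⟩ := h1
    unfold PL.H560.cbs at h2
    rw [mem_product, mem_product] at h2
    refine ⟨?_, ?_⟩
    · rw [mem_product, mem_product]
      exact ⟨h2.2.2, h2.2.1, h2.1⟩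
    · rw [← h3]
      show m'.2.2 + m'.2.1 + m'.1 = _
      ring

theorem card_E8 : E8.card = 8 := by
  unfold H795.E8
  rw [card_product, card_product]
  rfl

/-- **The gap energy of the pair on the shifted grids.** -/
theorem eP_le {K : ℕ} {M : Pt} {A : FamA} {b : FamV ι} {qA qB : ℕ → ℤ → ℤ → ℤ → Prop}
    {gA gB cP : ℝ} (f : ∀ t ∈ rt M, GapPt K M.2.2 M.2.1 M.1 t A b qA qB gA gB cP) (s : Pt) :
    eP K M A b s ≤ 1345536 * √(gA * gB) * (cP * 8 ^ K) := by
  have h1 : ∀ t ∈ rt M, ∑ x0 ∈ iv K t, ∑ k ∈ range K,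
      gpS K M (-x0) (k + 1) s (A x0 (k + 1)) (b x0 (k + 1)) ≤
      448512 * √(gA * gB) * (cP * 8 ^ K) := by
    intro t ht
    have e : ∑ x0 ∈ iv K t, ∑ k ∈ range K,
        gpS K M (-x0) (k + 1) s (A x0 (k + 1)) (b x0 (k + 1)) =
        ∑ j ∈ Icc (0 : ℤ) 2, ∑ e ∈ E8, ∑ x0 ∈ iv K t, ∑ k ∈ range K,
          ∑ m ∈ nS K M (-x0) (k + 1) s j e, gpT (cuA K M s (A x0 (k + 1)))
            (cuB K M s (b x0 (k + 1))) (k + 1) (rv m) := by
      unfold H58.gpS
      rw [sum_congr rfl fun x0 _ => sum_comm]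
      rw [sum_comm]
      refine sum_congr rfl fun j _ => ?_
      rw [sum_congr rfl fun x0 _ => sum_comm]
      rw [sum_comm]
    rw [e]
    have h2 : ∀ j ∈ Icc (0 : ℤ) 2, ∀ e ∈ E8, ∑ x0 ∈ iv K t, ∑ k ∈ range K,
        ∑ m ∈ nS K M (-x0) (k + 1) s j e, gpT (cuA K M s (A x0 (k + 1)))
          (cuB K M s (b x0 (k + 1))) (k + 1) (rv m) ≤
        18688 * √(gA * gB) * (cP * 8 ^ K) := by
      intro j hj e _
      refine (sum_le_sum fun x0 _ => sum_le_sum fun k _ =>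
        gp_nS K M (-x0) (k + 1) s j e (cuA K M s (A x0 (k + 1)))
          (cuB K M s (b x0 (k + 1)))).trans ?_
      exact (f t ht).gap_sh s.1 s.2.1 s.2.2 (c := fun x0 k => ix k (ys (-x0) s) - j)
        (fun x0 => H795.Pl_grid (-x0) s hj)
        (c0 := fun k n => -n + ix k (3 - s.1 - s.2.1 - s.2.2 - 2 ^ k + 1) - j)
        (fun k x => plane_two s j k x) (M - e).2.2 (M - e).2.1 (M - e).1
    refine (sum_le_sum fun j hj => sum_le_sum fun e he => h2 j hj e he).trans (le_of_eq ?_)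
    have hc : (Icc (0 : ℤ) 2).card = 3 := by decide
    rw [sum_const, sum_const, card_E8, hc, nsmul_eq_mul, nsmul_eq_mul]
    push_cast
    ring
  unfold H58.eP
  refine (sum_le_sum h1).trans ?_
  rw [sum_const, nsmul_eq_mul]
  have h2 : (rt M).card = 3 := by
    unfold H677.rt
    rw [Int.card_Icc]
    omega
  rw [h2]
  refine le_of_eq ?_
  push_cast
  ring

end

end Vale.Agent.P141.H210
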