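import Vale.Agent.P141.H210.Shift
import Vale.Agent.P141.H576.GlueW
import Vale.Agent.P141.H352.Abel

/-!
# P141, line (A): energies of Gram matrices on translated squares

* `SS` : energy of the Gram matrix of a vector function on a rectangle, unnormalised;
* `SS_mono_x`, `SS_mono_y`, `SS_union_x`, `SS_union_y`;
* `S2_QK_one`, `S2_PA` : the energies of `QK b 1` and `PA A` are `SS`;
* `SS_sh` : the energy of a translated cut square is at most four times the energies of the old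
  squares which it meets.
-/

namespace Vale.Agent.P141.H210

open Finset Matrix
open Vale.Agent.P141.PL (iv ix mem_iv ix_ix self_mem_iv)
open Vale.Agent.P141.H103
open Vale.Agent.P141.H588G (S2)
open Vale.Agent.P075 (Ix val)

noncomputable section

open scoped Classical

variable {κ : Type*} [Fintype κ]

/-- Gram matrix, unnormalised -/
def Gm (X : Finset ℤ) (b : ℤ → ℤ → κ → ℝ) (y y' : ℤ) : ℝ := ∑ x ∈ X, b x y ⬝ᵥ b x y'

/-- energy of the Gram matrix, unnormalised -/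
def SS (X Y : Finset ℤ) (b : ℤ → ℤ → κ → ℝ) : ℝ := ∑ y ∈ Y, ∑ y' ∈ Y, Gm X b y y' ^ 2

theorem SS_nonneg (X Y : Finset ℤ) (b : ℤ → ℤ → κ → ℝ) : 0 ≤ SS X Y b :=
  sum_nonneg fun _ _ => sum_nonneg fun _ _ => sq_nonneg _

/-- duality -/
theorem Gm_dual (X X' Y Y' : Finset ℤ) (b : ℤ → ℤ → κ → ℝ) :
    ∑ y ∈ Y, ∑ y' ∈ Y', Gm X b y y' * Gm X' b y y' =
      ∑ x ∈ X, ∑ x' ∈ X', ∑ i, ∑ i', (∑ y ∈ Y, b x y i * b x' y i') *
        ∑ y' ∈ Y', b x y' i * b x' y' i' := by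
  have e1 : ∀ y y' : ℤ, Gm X b y y' * Gm X' b y y' =
      ∑ x ∈ X, ∑ x' ∈ X', ∑ i, ∑ i', (b x y i * b x' y i') * (b x y' i * b x' y' i') := by
    intro y y'
    unfold Gm dotProduct
    rw [sum_mul_sum]
    refine sum_congr rfl fun x _ => sum_congr rfl fun x' _ => ?_
    rw [sum_mul_sum]
    refine sum_congr rfl fun i _ => sum_congr rfl fun i' _ => ?_
    ring
  simp only [e1, sum_mul_sum]
  rw [sum_congr rfl fun y _ => sum_comm]
  rw [sum_comm]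
  refine sum_congr rfl fun x _ => ?_
  rw [sum_congr rfl fun y _ => sum_comm]
  rw [sum_comm]
  refine sum_congr rfl fun x' _ => ?_
  rw [sum_congr rfl fun y _ => sum_comm]
  rw [sum_comm]
  refine sum_congr rfl fun i _ => ?_
  rw [sum_congr rfl fun y _ => sum_comm]
  rw [sum_comm]

theorem Gm_sq_nonneg (X X' Y : Finset ℤ) (b : ℤ → ℤ → κ → ℝ) :
    0 ≤ ∑ y ∈ Y, ∑ y' ∈ Y, Gm X b y y' * Gm X' b y y' := by
  rw [Gm_dual]
  exact sum_nonneg fun _ _ => sum_nonneg fun _ _ => sum_nonneg fun _ _ => sum_nonneg fun _ _ =>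
    mul_self_nonneg _

theorem Gm_cross (X Y Y' : Finset ℤ) (b : ℤ → ℤ → κ → ℝ) :
    2 * ∑ y ∈ Y, ∑ y' ∈ Y', Gm X b y y' ^ 2 ≤ SS X Y b + SS X Y' b := by
  unfold SS
  simp only [sq]
  rw [Gm_dual, Gm_dual, Gm_dual, mul_sum, ← sum_add_distrib]
  refine sum_le_sum fun x _ => ?_
  rw [mul_sum, ← sum_add_distrib]
  refine sum_le_sum fun x' _ => ?_
  rw [mul_sum, ← sum_add_distrib]
  refine sum_le_sum fun i _ => ?_
  rw [mul_sum, ← sum_add_distrib]
  refine sum_le_sum fun i' _ => ?_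
  nlinarith [sq_nonneg ((∑ y ∈ Y, b x y i * b x' y i') - ∑ y ∈ Y', b x y i * b x' y i')]

theorem Gm_union {X X' : Finset ℤ} (h : Disjoint X X') (b : ℤ → ℤ → κ → ℝ) (y y' : ℤ) :
    Gm (X ∪ X') b y y' = Gm X b y y' + Gm X' b y y' := by
  unfold Gm
  rw [sum_union h]

theorem SS_mono_x {X X' : Finset ℤ} (h : X ⊆ X') (Y : Finset ℤ) (b : ℤ → ℤ → κ → ℝ) :
    SS X Y b ≤ SS X' Y b := by
  obtain ⟨D, hD, hdis⟩ : ∃ D, X' = X ∪ D ∧ Disjoint X D :=
    ⟨X' \ X, (union_sdiff_of_subset h).symm, disjoint_sdiff⟩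
  have e : SS X' Y b = SS X Y b + 2 * ∑ y ∈ Y, ∑ y' ∈ Y, Gm X b y y' * Gm D b y y' +
      SS D Y b := by
    unfold SS
    rw [hD, mul_sum, ← sum_add_distrib, ← sum_add_distrib]
    refine sum_congr rfl fun y _ => ?_
    rw [mul_sum, ← sum_add_distrib, ← sum_add_distrib]
    refine sum_congr rfl fun y' _ => ?_
    rw [Gm_union hdis]
    ring
  rw [e]
  have h1 := Gm_sq_nonneg X D Y b
  have h2 := SS_nonneg D Y b
  linarith

theorem SS_mono_y (X : Finset ℤ) {Y Y' : Finset ℤ} (h : Y ⊆ Y') (b : ℤ → ℤ → κ → ℝ) :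
    SS X Y b ≤ SS X Y' b := by
  unfold SS
  refine (sum_le_sum_of_subset_of_nonneg h fun _ _ _ => sum_nonneg fun _ _ => sq_nonneg _).trans ?_
  exact sum_le_sum fun y _ => sum_le_sum_of_subset_of_nonneg h fun _ _ _ => sq_nonneg _

theorem SS_union_x {X X' : Finset ℤ} (h : Disjoint X X') (Y : Finset ℤ) (b : ℤ → ℤ → κ → ℝ) :
    SS (X ∪ X') Y b ≤ 2 * SS X Y b + 2 * SS X' Y b := by
  unfold SS
  rw [mul_sum, mul_sum, ← sum_add_distrib]
  refine sum_le_sum fun y _ => ?_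
  rw [mul_sum, mul_sum, ← sum_add_distrib]
  refine sum_le_sum fun y' _ => ?_
  rw [Gm_union h]
  nlinarith [sq_nonneg (Gm X b y y' - Gm X' b y y')]

theorem SS_union_y (X : Finset ℤ) {Y Y' : Finset ℤ} (h : Disjoint Y Y') (b : ℤ → ℤ → κ → ℝ) :
    SS X (Y ∪ Y') b ≤ 2 * SS X Y b + 2 * SS X Y' b := by
  have e : SS X (Y ∪ Y') b = SS X Y b + SS X Y' b +
      (∑ y ∈ Y, ∑ y' ∈ Y', Gm X b y y' ^ 2 + ∑ y ∈ Y', ∑ y' ∈ Y, Gm X b y y' ^ 2) := by
    unfold SS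
    rw [sum_union h]
    simp only [sum_union h, sum_add_distrib]
    ring
  rw [e]
  have h1 := Gm_cross X Y Y' b
  have h2 := Gm_cross X Y' Y b
  linarith

/-- the sum over the four squares -/
theorem SS_four {X X' Y Y' : Finset ℤ} (h : Disjoint X X') (h' : Disjoint Y Y')
    (b : ℤ → ℤ → κ → ℝ) :
    SS (X ∪ X') (Y ∪ Y') b ≤ 4 * (SS X Y b + SS X Y' b + SS X' Y b + SS X' Y' b) := by
  have h1 := SS_union_y (X ∪ X') h' b
  have h2 := SS_union_x h Y b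
  have h3 := SS_union_x h Y' b
  linarith

theorem SS_congr {X Y : Finset ℤ} {b b' : ℤ → ℤ → κ → ℝ}
    (h : ∀ x ∈ X, ∀ y ∈ Y, b x y = b' x y) : SS X Y b = SS X Y b' := by
  unfold SS Gm
  refine sum_congr rfl fun y hy => sum_congr rfl fun y' hy' => ?_
  congr 1
  exact sum_congr rfl fun x hx => by rw [h x hx y hy, h x hx y' hy']

theorem SS_zero {X Y : Finset ℤ} {b : ℤ → ℤ → κ → ℝ} (h : ∀ x ∈ X, ∀ y ∈ Y, b x y = 0) :
    SS X Y b = 0 := by
  unfold SS Gm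
  refine sum_eq_zero fun y hy => sum_eq_zero fun y' hy' => ?_
  rw [sum_eq_zero fun x hx => by rw [h x hx y hy, zero_dotProduct]]
  ring

/-- translation of both variables -/
theorem SS_tr (X Y : Finset ℤ) (b : ℤ → ℤ → κ → ℝ) (a c : ℤ) :
    SS X Y (fun x y => b (x + a) (y + c)) =
      SS (X.map (addRightEmbedding a)) (Y.map (addRightEmbedding c)) b := by
  unfold SS Gm
  rw [sum_map]
  refine sum_congr rfl fun y _ => ?_
  rw [sum_map]
  refine sum_congr rfl fun y' _ => ?_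
  rw [sum_map]
  rfl

theorem map_cell (k : ℕ) (n a : ℤ) :
    (iv k n).map (addRightEmbedding a) ⊆ iv k (n + ix k a) ∪ iv k (n + ix k a + 1) := by
  intro x hx
  rw [mem_map] at hx
  obtain ⟨y, hy, rfl⟩ := hx
  rw [mem_union, mem_iv, mem_iv]
  have h := ix_add k y a
  rw [mem_iv.1 hy] at h
  exact h

theorem cell_disj (k : ℕ) (n : ℤ) : Disjoint (iv k n) (iv k (n + 1)) := by
  rw [disjoint_left]
  intro x hx hx'
  have h1 := mem_iv.1 hx
  have h2 := mem_iv.1 hx'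
  omega

/-- **The energy of a translated square.** -/
theorem SS_sh (k : ℕ) (n m a c : ℤ) (b : ℤ → ℤ → κ → ℝ) :
    SS (iv k n) (iv k m) (fun x y => b (x + a) (y + c)) ≤
      4 * ∑ i ∈ two (n + ix k a), ∑ j ∈ two (m + ix k c), SS (iv k i) (iv k j) b := by
  rw [SS_tr]
  refine (SS_mono_x (map_cell k n a) _ b).trans ((SS_mono_y _ (map_cell k m c) b).trans ?_)
  refine (SS_four (cell_disj k _) (cell_disj k _) b).trans (le_of_eq ?_)
  rw [sum_two, sum_two, sum_two]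
  ring

/-! ### The matrices -/

theorem sum_Ix_iv (k : ℕ) (m : ℤ) (f : ℤ → ℝ) :
    ∑ j : Ix k, f (2 ^ k * m + val k j) = ∑ y ∈ iv k m, f y := by
  rw [P075.sum_val k (fun i => f (2 ^ k * m + (i : ℤ))), H352.sum_iv]

/-- energy of a Gram matrix in the middle variable -/
theorem S2_QW (a k : ℕ) (b : ℤ → ℤ → κ → ℝ) (n m : ℤ) [DecidableEq κ] :
    S2 (QW a k b (fun _ => (1 : Matrix κ κ ℝ)⁻¹) n m) =
      (((2 : ℝ) ^ a * 2 ^ k)⁻¹) ^ 2 * SS (iv a n) (iv k m) b := by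
  have e0 : ∀ j j' : Ix k, QW a k b (fun _ => (1 : Matrix κ κ ℝ)⁻¹) n m j j' =
      ((2 : ℝ) ^ a * 2 ^ k)⁻¹ * Gm (iv a n) b (2 ^ k * m + val k j) (2 ^ k * m + val k j') := by
    intro j j'
    unfold QW Gm
    congr 1
    refine sum_congr rfl fun x _ => ?_
    rw [inv_one, one_mulVec]
  have e1 : ∀ y y' : ℤ, Gm (iv a n) b y y' = Gm (iv a n) b y' y := by
    intro y y'
    unfold Gm
    exact sum_congr rfl fun x _ => dotProduct_comm _ _
  unfold H588G.S2 Matrix.trace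
  simp only [Matrix.diag_apply, Matrix.mul_apply, e0]
  have e2 : ∀ j j' : Ix k,
      ((2 : ℝ) ^ a * 2 ^ k)⁻¹ * Gm (iv a n) b (2 ^ k * m + val k j) (2 ^ k * m + val k j') *
        (((2 : ℝ) ^ a * 2 ^ k)⁻¹ * Gm (iv a n) b (2 ^ k * m + val k j') (2 ^ k * m + val k j)) =
      (((2 : ℝ) ^ a * 2 ^ k)⁻¹) ^ 2 *
        (Gm (iv a n) b (2 ^ k * m + val k j) (2 ^ k * m + val k j')) ^ 2 := by
    intro j j'
    rw [e1 (2 ^ k * m + val k j') (2 ^ k * m + val k j)]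
    ring
  simp only [e2, ← mul_sum]
  congr 1
  unfold SS
  rw [← sum_Ix_iv k m (fun y => ∑ y' ∈ iv k m, Gm (iv a n) b y y' ^ 2)]
  refine sum_congr rfl fun j _ => ?_
  rw [← sum_Ix_iv k m (fun y' => Gm (iv a n) b (2 ^ k * m + val k j) y' ^ 2)]

theorem S2_QK_one [DecidableEq κ] (k : ℕ) (b : ℤ → ℤ → κ → ℝ) (n m : ℤ) :
    S2 (QK b (fun _ _ _ => 1) k k n m) = ((4 : ℝ) ^ k)⁻¹ ^ 2 * SS (iv k n) (iv k m) b := by
  unfold H103.QK
  rw [S2_QW]
  have : (2 : ℝ) ^ k * 2 ^ k = 4 ^ k := by rw [← mul_pow]; norm_num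
  rw [this]

end

end Vale.Agent.P141.H210
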