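import Vale.Agent.P141.H922.MovR

/-!
# P141, line (A): the moving lemma with displaced cells

* `off_shift` : `SUM_(k ≤ n - r) 2 ^ k SUM_m (F k (m + δ k) - F k m) ^ 2 ≤ (6 r ^ 2 + 1920) SUM f ^ 2`
  for cell averages `F` and any displacements `|δ k| ≤ 2 · 2 ^ r`;
* `move_off` : `move_real` with the matrix of scale `k` at the cell opposite to `m + δ k`.
-/

namespace Vale.Agent.P141.H210

open Finset Matrix
open scoped ENNReal
open Vale.Agent.P141.PL (iv ix mem_iv)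
open Vale.Agent.P141.H420 (Tr)
open Vale.Agent.P141.H922 (ck V0m V0m_eq mart_eq move_real)
open Vale.Agent.P141.H922.Sh (sm Fa dF nb sm_shift sm_even_odd sm_le2 sm_le3 sq_nat EE NN NN_top
  nbi sum_down sum_energy Fa_mean Fa_even Fa_odd exists_anti sum_anti sm_eq le_sm avI sm_neg)

noncomputable section

theorem sm_half (h : ℤ → ℝ) : sm (fun m => h (m / 2)) = 2 * sm h := by
  rw [sm_even_odd]
  have e1 : (fun m : ℤ => h (2 * m / 2)) = h := by
    funext m; congr 1; omega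
  have e2 : (fun m : ℤ => h ((2 * m + 1) / 2)) = h := by
    funext m; congr 1; omega
  rw [e1, e2, two_mul]

theorem div_pow_succ (m : ℤ) (j : ℕ) : m / 2 ^ (j + 1) = m / 2 ^ j / 2 := by
  rw [Int.ediv_ediv_of_nonneg (by positivity), pow_succ]

theorem sm_par (h : ℤ → ℝ) (j : ℕ) : sm (fun m => h (m / 2 ^ j)) = 2 ^ j * sm h := by
  induction j generalizing h with
  | zero => simp
  | succ j ih =>
    simp only [div_pow_succ]
    rw [ih (fun m => h (m / 2)), sm_half, pow_succ]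
    ring

/-- Cauchy–Schwarz for the sums over the line -/
theorem sm_sum (r : ℕ) (b : ℕ → ℤ → ℝ) :
    sm (fun m => ∑ j ∈ range r, b j m) ≤ r * ∑ j ∈ range r, sm (b j) := by
  unfold sm
  have e : ∑ j ∈ range r, ∑' m : ℤ, H922.Sh.sq (b j m) =
      ∑' m : ℤ, ∑ j ∈ range r, H922.Sh.sq (b j m) :=
    (Summable.tsum_finsetSum fun _ _ => ENNReal.summable).symm
  rw [e, ← ENNReal.tsum_mul_left]
  refine ENNReal.tsum_le_tsum fun m => ?_
  unfold H922.Sh.sq
  rw [← ENNReal.ofReal_sum_of_nonneg fun _ _ => sq_nonneg _,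
    ← ENNReal.ofReal_natCast, ← ENNReal.ofReal_mul (Nat.cast_nonneg r)]
  refine ENNReal.ofReal_le_ofReal ?_
  have := sq_sum_le_card_mul_sum_sq (s := range r) (f := fun j => b j m)
  simpa using this

/-- one layer -/
def lay (S : ℤ → ℝ) (k : ℕ) (m : ℤ) : ℝ := Fa S k m - Fa S (k + 1) (m / 2)

theorem sm_lay (S : ℤ → ℝ) (k : ℕ) : sm (lay S k) = 2 * sm (dF S k) := by
  rw [sm_even_odd]
  have e1 : (fun m : ℤ => lay S k (2 * m)) = dF S k := by
    funext m
    unfold lay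
    have : 2 * m / 2 = m := by omega
    rw [this, Fa_even]; ring
  have e2 : (fun m : ℤ => lay S k (2 * m + 1)) = fun m => -dF S k m := by
    funext m
    unfold lay
    have : (2 * m + 1) / 2 = m := by omega
    rw [this, Fa_odd]; ring
  rw [e1, e2, sm_neg, two_mul]

/-- the value at the ancestor -/
def par (S : ℤ → ℝ) (r k : ℕ) (m : ℤ) : ℝ := Fa S (k + r) (m / 2 ^ r)

theorem par_tele (S : ℤ → ℝ) (r k : ℕ) (m : ℤ) :
    Fa S k m - par S r k m = ∑ j ∈ range r, lay S (k + j) (m / 2 ^ j) := by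
  induction r with
  | zero => simp [par]
  | succ r ih =>
    rw [sum_range_succ, ← ih]
    unfold par lay
    rw [div_pow_succ]
    have : k + (r + 1) = k + r + 1 := by ring
    rw [this]
    ring

theorem sm_par_diff (S : ℤ → ℝ) (r k : ℕ) :
    sm (fun m => Fa S k m - par S r k m) ≤ r * ∑ j ∈ range r, 2 ^ (j + 1) * sm (dF S (k + j)) := by
  simp only [par_tele]
  refine (sm_sum r fun j m => lay S (k + j) (m / 2 ^ j)).trans (le_of_eq ?_)
  congr 1
  refine sum_congr rfl fun j _ => ?_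
  rw [sm_par (lay S (k + j)) j, sm_lay, pow_succ]
  ring

/-- the displaced ancestor -/
theorem sm_par_shift (S : ℤ → ℝ) (r k : ℕ) {d : ℤ} (hd : |d| ≤ 2 * 2 ^ r) :
    sm (fun m => par S r k (m + d) - par S r k m) ≤ 20 * (2 ^ r * sm (nb S (k + r))) := by
  have hp : (0 : ℤ) < 2 ^ r := by positivity
  have h1 : sm (fun m => par S r k (m + d) - par S r k m) ≤
      ∑ i ∈ range 5, sm (fun m => (fun q : ℤ => Fa S (k + r) (q + ((i : ℤ) - 2)) -
        Fa S (k + r) q) (m / 2 ^ r)) := by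
    unfold sm
    rw [← Summable.tsum_finsetSum fun _ _ => ENNReal.summable]
    refine ENNReal.tsum_le_tsum fun m => ?_
    obtain ⟨q, hq⟩ : ∃ q, q = m / 2 ^ r := ⟨_, rfl⟩
    obtain ⟨ρ, hρ⟩ : ∃ ρ, ρ = m - 2 ^ r * q := ⟨_, rfl⟩
    have h0 : 0 ≤ ρ := by
      rw [hρ, hq]; have := Int.mul_ediv_self_le (x := m) (k := 2 ^ r) hp.ne'; linarith
    have h1 : ρ < 2 ^ r := by
      rw [hρ, hq]; have := Int.lt_mul_ediv_self_add (x := m) (k := 2 ^ r) hp; linarith
    obtain ⟨hd1, hd2⟩ := abs_le.1 hd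
    obtain ⟨i, hi⟩ : ∃ i, i = (ρ + d) / 2 ^ r := ⟨_, rfl⟩
    have hi1 : -2 ≤ i := by
      rw [hi, Int.le_ediv_iff_mul_le hp]; linarith
    have hi2 : i ≤ 2 := by
      rw [hi]
      have h1 : ρ + d < 3 * 2 ^ r := by linarith
      have := Int.ediv_lt_of_lt_mul hp h1
      omega
    have e1 : (m + d) / 2 ^ r = q + i := by
      have : m + d = (ρ + d) + 2 ^ r * q := by rw [hρ]; ring
      rw [this, Int.add_mul_ediv_left _ _ hp.ne', hi]; ring
    have e2 : par S r k (m + d) - par S r k m = Fa S (k + r) (q + i) - Fa S (k + r) q := by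
      unfold par
      rw [e1, ← hq]
    show H922.Sh.sq (par S r k (m + d) - par S r k m) ≤ _
    rw [e2]
    have hmem : (i + 2).toNat ∈ range 5 := by
      rw [mem_range]; omega
    refine le_trans (le_of_eq ?_) (single_le_sum (f := fun j : ℕ =>
      H922.Sh.sq ((fun q : ℤ => Fa S (k + r) (q + ((j : ℤ) - 2)) - Fa S (k + r) q) (m / 2 ^ r)))
      (fun _ _ => bot_le) hmem)
    have e3 : (((i + 2).toNat : ℕ) : ℤ) - 2 = i := by omega
    simp only [e3, ← hq]
  refine h1.trans ?_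
  have h2 : ∀ i ∈ range 5, sm (fun m => (fun q : ℤ => Fa S (k + r) (q + ((i : ℤ) - 2)) -
        Fa S (k + r) q) (m / 2 ^ r)) ≤ 2 ^ r * (4 * sm (nb S (k + r))) := by
    intro i hi
    rw [mem_range] at hi
    rw [sm_par (fun q : ℤ => Fa S (k + r) (q + ((i : ℤ) - 2)) - Fa S (k + r) q) r]
    gcongr
    exact nbi S (k + r) (by omega) (by omega)
  refine (sum_le_sum h2).trans (le_of_eq ?_)
  rw [sum_const, card_range, nsmul_eq_mul]
  push_cast
  ring

/-! ### The sums over the scales -/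

theorem sum_nb (S : ℤ → ℝ) (n : ℕ) :
    ∑ k ∈ range (n + 1), 2 ^ k * sm (nb S k) ≤ 32 * sm (Fa S 0) := by
  set D := ∑ k ∈ range n, 2 ^ (k + 1) * sm (dF S k) with hD
  have h1 : ∑ k ∈ range n, 2 ^ k * sm (nb S k) + 3 * (2 ^ 0 * sm (nb S 0)) ≤
      3 * (2 ^ n * sm (nb S n)) + 32 * D := by
    refine sum_down n (fun k => 2 ^ k * sm (nb S k)) (fun k => 2 ^ (k + 1) * sm (dF S k))
      fun k _ => ?_
    have := NN S k
    calc 4 * (2 ^ k * sm (nb S k)) = 2 ^ k * 2 * (2 * sm (nb S k)) := by ring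
      _ ≤ 2 ^ k * 2 * (3 * sm (nb S (k + 1)) + 32 * sm (dF S k)) := by gcongr
      _ = _ := by ring
  have h3 := NN_top S n
  have h4 := sum_energy S n
  rw [← hD] at h4
  calc ∑ k ∈ range (n + 1), 2 ^ k * sm (nb S k)
      = ∑ k ∈ range n, 2 ^ k * sm (nb S k) + 2 ^ n * sm (nb S n) := by rw [sum_range_succ]
    _ ≤ (3 * (2 ^ n * sm (nb S n)) + 32 * D) + 2 ^ n * sm (nb S n) := by
        gcongr
        exact le_self_add.trans h1
    _ = 4 * (2 ^ n * sm (nb S n)) + 32 * D := by ring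
    _ ≤ 4 * (2 ^ n * (4 * sm (Fa S n))) + 32 * D := by gcongr
    _ = 16 * (2 ^ n * sm (Fa S n)) + 32 * D := by ring
    _ ≤ 32 * (2 ^ n * sm (Fa S n)) + 32 * D := by gcongr; norm_num
    _ = 32 * sm (Fa S 0) := by rw [h4]; ring

theorem sum_range_shift_le (g : ℕ → ℝ≥0∞) {M j N : ℕ} (h : M + j ≤ N) :
    ∑ k ∈ range M, g (k + j) ≤ ∑ l ∈ range N, g l := by
  rw [range_eq_Ico, Finset.sum_Ico_add' g 0 M j, range_eq_Ico]
  refine sum_le_sum_of_subset fun x hx => ?_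
  rw [mem_Ico] at hx ⊢
  omega

/-- **Displaced cells**, sums over the line, displacement at most `2 · 2 ^ r` cells. -/
theorem off_top (S : ℤ → ℝ) {n r : ℕ} (hr : r ≤ n) {δ : ℕ → ℤ} (hδ : ∀ k, |δ k| ≤ 2 * 2 ^ r) :
    ∑ k ∈ range (n - r + 1), 2 ^ k * sm (fun m => Fa S k (m + δ k) - Fa S k m) ≤
      (6 * r ^ 2 + 1920) * sm (Fa S 0) := by
  set D := ∑ k ∈ range n, 2 ^ (k + 1) * sm (dF S k) with hD
  have hDle : D ≤ sm (Fa S 0) := by
    rw [sum_energy S n, ← hD]; exact le_add_self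
  have h1 : ∀ k, 2 ^ k * sm (fun m => Fa S k (m + δ k) - Fa S k m) ≤
      6 * (r * ∑ j ∈ range r, 2 ^ (k + j + 1) * sm (dF S (k + j))) +
        60 * (2 ^ (k + r) * sm (nb S (k + r))) := by
    intro k
    set g : ℤ → ℝ := fun m => Fa S k m - par S r k m with hg
    set u : ℤ → ℝ := fun m => par S r k (m + δ k) - par S r k m with hu
    have h2 : (1 : ℕ) * sm (fun m => Fa S k (m + δ k) - Fa S k m) ≤
        (3 : ℕ) * sm (fun m => g (m + δ k)) + (3 : ℕ) * sm u + (3 : ℕ) * sm g :=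
      sm_le3 1 3 3 3 fun m => by
        have e : Fa S k (m + δ k) - Fa S k m = g (m + δ k) + u m - g m := by
          simp only [hg, hu]; ring
        rw [e]
        push_cast
        set x := g (m + δ k)
        set y := u m
        set z := g m
        nlinarith [sq_nonneg (x - y), sq_nonneg (x + z), sq_nonneg (y + z)]
    rw [sm_shift g] at h2
    have h3 := sm_par_diff S r k
    have h4 := sm_par_shift S r k (hδ k)
    push_cast at h2
    rw [one_mul] at h2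
    calc 2 ^ k * sm (fun m => Fa S k (m + δ k) - Fa S k m)
        ≤ 2 ^ k * (3 * sm g + 3 * sm u + 3 * sm g) := by gcongr
      _ = 6 * (2 ^ k * sm g) + 3 * (2 ^ k * sm u) := by ring
      _ ≤ 6 * (2 ^ k * (r * ∑ j ∈ range r, 2 ^ (j + 1) * sm (dF S (k + j)))) +
          3 * (2 ^ k * (20 * (2 ^ r * sm (nb S (k + r))))) := by gcongr
      _ = _ := by
        congr 1
        · congr 1
          rw [mul_left_comm, mul_sum]
          congr 1
          refine sum_congr rfl fun j _ => ?_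
          rw [← mul_assoc, ← pow_add, add_assoc]
        · rw [pow_add]; ring
  refine (sum_le_sum fun k _ => h1 k).trans ?_
  rw [sum_add_distrib, ← mul_sum, ← mul_sum, ← mul_sum, sum_comm]
  have h5 : ∑ j ∈ range r, ∑ k ∈ range (n - r + 1), 2 ^ (k + j + 1) * sm (dF S (k + j)) ≤
      r * sm (Fa S 0) := by
    have h6 : ∀ j ∈ range r, ∑ k ∈ range (n - r + 1), 2 ^ (k + j + 1) * sm (dF S (k + j)) ≤
        sm (Fa S 0) := fun j hj =>
      (sum_range_shift_le (fun l => 2 ^ (l + 1) * sm (dF S l))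
        (by rw [mem_range] at hj; omega : n - r + 1 + j ≤ n)).trans hDle
    refine (sum_le_sum h6).trans (le_of_eq ?_)
    rw [sum_const, card_range, nsmul_eq_mul]
  have h7 : ∑ k ∈ range (n - r + 1), 2 ^ (k + r) * sm (nb S (k + r)) ≤ 32 * sm (Fa S 0) :=
    (sum_range_shift_le (fun l => 2 ^ l * sm (nb S l))
      (by omega : n - r + 1 + r ≤ n + 1)).trans (sum_nb S n)
  calc _ ≤ 6 * (r * (r * sm (Fa S 0))) + 60 * (32 * sm (Fa S 0)) := by gcongr
    _ = _ := by ring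

/-- **Displaced cells**, real form. -/
theorem off_shift {f : ℤ → ℝ} {X : Finset ℤ} (hf : ∀ x, x ∉ X → f x = 0) {n r : ℕ} (hr : r ≤ n)
    {δ : ℕ → ℤ} (hδ : ∀ k, |δ k| ≤ 2 * 2 ^ r) (W : ℕ → Finset ℤ) :
    ∑ k ∈ range (n - r + 1), 2 ^ k * ∑ m ∈ W k,
      (avI f k (2 ^ k * (m + δ k)) - avI f k (2 ^ k * m)) ^ 2 ≤
      (6 * r ^ 2 + 1920) * ∑ x ∈ X, f x ^ 2 := by
  obtain ⟨S, hS⟩ := exists_anti hf
  have hI : ∀ k a, avI f k a = (S (a + 2 ^ k) - S a) / 2 ^ k := by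
    intro k a
    have := sum_anti hS a (2 ^ k)
    push_cast at this
    unfold avI
    rw [this]
    ring
  have e2 : ∀ k m, avI f k (2 ^ k * m) = Fa S k m := by
    intro k m
    rw [hI]; unfold Fa
    have : (2 : ℤ) ^ k * m + 2 ^ k = 2 ^ k * (m + 1) := by ring
    rw [this]
  simp only [e2]
  have h1 := off_top S hr hδ
  have e3 : Fa S 0 = f := by
    funext x
    unfold Fa
    simp only [pow_zero, one_mul, div_one]
    exact hS x
  rw [e3, sm_eq hf] at h1
  have h2 : ENNReal.ofReal (∑ k ∈ range (n - r + 1), 2 ^ k * ∑ m ∈ W k,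
      (Fa S k (m + δ k) - Fa S k m) ^ 2) ≤
      ENNReal.ofReal ((6 * r ^ 2 + 1920) * ∑ x ∈ X, f x ^ 2) := by
    rw [ENNReal.ofReal_sum_of_nonneg fun _ _ =>
      mul_nonneg (by positivity) (sum_nonneg fun _ _ => sq_nonneg _)]
    rw [ENNReal.ofReal_mul (by positivity : (0 : ℝ) ≤ 6 * r ^ 2 + 1920)]
    have e4 : ENNReal.ofReal (6 * r ^ 2 + 1920) = 6 * r ^ 2 + 1920 := by
      rw [ENNReal.ofReal_add (by positivity) (by norm_num), ENNReal.ofReal_mul (by norm_num),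
        ENNReal.ofReal_pow (by positivity), ENNReal.ofReal_natCast]
      norm_num
    rw [e4]
    refine le_trans (sum_le_sum fun k _ => ?_) h1
    rw [ENNReal.ofReal_mul (by positivity), ENNReal.ofReal_pow (by norm_num)]
    have e5 : ENNReal.ofReal 2 = 2 := by norm_num
    rw [e5]
    gcongr
    exact le_sm (fun m => Fa S k (m + δ k) - Fa S k m) (W k)
  exact (ENNReal.ofReal_le_ofReal_iff (mul_nonneg (by positivity)
    (sum_nonneg fun _ _ => sq_nonneg _))).1 h2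

/-- **Displaced cells**, vectors. -/
theorem off_shift_vec {ι : Type*} [Fintype ι] {f : ℤ → ι → ℝ} {X : Finset ℤ}
    (hf : ∀ x, x ∉ X → f x = 0) {n r : ℕ} (hr : r ≤ n)
    {δ : ℕ → ℤ} (hδ : ∀ k, |δ k| ≤ 2 * 2 ^ r) (W : ℕ → Finset ℤ) :
    ∑ k ∈ range (n - r + 1), 2 ^ k * ∑ m ∈ W k, ∑ i,
      (avI (fun x => f x i) k (2 ^ k * (m + δ k)) - avI (fun x => f x i) k (2 ^ k * m)) ^ 2 ≤
      (6 * r ^ 2 + 1920) * ∑ x ∈ X, ∑ i, f x i ^ 2 := by
  have h := fun i => off_shift (f := fun x => f x i) (X := X)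
    (fun x hx => by rw [hf x hx]; rfl) hr hδ W
  have h2 := Finset.sum_le_sum fun i (_ : i ∈ (univ : Finset ι)) => h i
  have e1 : ∑ i, (6 * (r : ℝ) ^ 2 + 1920) * ∑ x ∈ X, f x i ^ 2 =
      (6 * (r : ℝ) ^ 2 + 1920) * ∑ x ∈ X, ∑ i, f x i ^ 2 := by
    rw [← mul_sum, sum_comm]
  rw [← e1]
  refine le_trans (le_of_eq ?_) h2
  rw [sum_comm]
  refine sum_congr rfl fun k _ => ?_
  rw [← mul_sum, sum_comm]

/-! ### The moving lemma with displaced cells -/

variable {ι : Type*} [Fintype ι] [DecidableEq ι]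

/-- **The moving lemma with displaced cells** (fixed `x₁, x₃`): the matrix of scale `k` is taken at
the cell of `x₂` opposite to `m + δ k`, `|δ k| ≤ 2 · 2 ^ r`. -/
theorem move_off {l : ℝ} {n : ℕ} {G K : ℕ → ℤ → Matrix ι ι ℝ} (h : Tr l n G K) {o : ℤ}
    (ho : o = 1 ∨ o = -1) (x1 x3 : ℤ) {V : ℕ → ℤ → ι → ℝ} (hV : H483.Mart n V) {X : Finset ℤ}
    (hX : ∀ x, x ∉ X → V 0 x = 0) {r : ℕ} (hr : r ≤ n) {δ : ℕ → ℤ}
    (hδ : ∀ k, |δ k| ≤ 2 * 2 ^ r) (W : ℕ → Finset ℤ) :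
    ∑ k ∈ Icc 1 (n - r), 2 ^ k * ∑ m ∈ W k,
      H483.mT l K k (ck o x1 x3 k - δ k - m) (V k m) ⬝ᵥ
        H483.mT l K k (ck o x1 x3 k - δ k - m) (V k m) ≤
      10000 * (1 + r) ^ 2 * ∑ x ∈ X, V 0 x ⬝ᵥ V 0 x := by
  classical
  set f := V 0 with hf
  set E := ∑ x ∈ X, f x ⬝ᵥ f x with hE
  have hE0 : 0 ≤ E := sum_nonneg fun _ _ => H483.dot_nonneg _
  -- the matrix at the opposite cell
  have h1 : ∑ k ∈ Icc 1 (n - r), 2 ^ k * ∑ m ∈ W k,
      H483.mT l K k (ck o x1 x3 k - δ k - m) (V k (m + δ k)) ⬝ᵥ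
        H483.mT l K k (ck o x1 x3 k - δ k - m) (V k (m + δ k)) ≤ 1408 * E := by
    refine le_trans ?_ (move_real h ho x1 x3 hV hX fun k =>
      (W k).image fun m => ck o x1 x3 k - δ k - m)
    refine le_trans (le_of_eq ?_) (sum_le_sum_of_subset_of_nonneg (s := Icc 1 (n - r))
      (fun k hk => ?_) fun k _ _ => mul_nonneg (by positivity)
        (sum_nonneg fun _ _ => H483.dot_nonneg _))
    · refine sum_congr rfl fun k _ => ?_
      rw [sum_image]
      · congr 1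
        refine sum_congr rfl fun m _ => ?_
        have e : ck o x1 x3 k - (ck o x1 x3 k - δ k - m) = m + δ k := by ring
        rw [e]
      · intro a _ b _ hab
        simp only at hab
        omega
    · rw [mem_Icc] at hk ⊢
      omega
  -- the displacement
  have h2 : ∑ k ∈ Icc 1 (n - r), 2 ^ k * ∑ m ∈ W k,
      (V k (m + δ k) - V k m) ⬝ᵥ (V k (m + δ k) - V k m) ≤ (6 * r ^ 2 + 1920) * E := by
    have h3 := off_shift_vec (f := f) hX hr hδ W
    have e0 : E = ∑ x ∈ X, ∑ i, f x i ^ 2 := by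
      rw [hE]
      refine sum_congr rfl fun x _ => ?_
      simp only [dotProduct, sq]
    rw [e0]
    refine le_trans ?_ h3
    refine le_trans (le_of_eq ?_) (sum_le_sum_of_subset_of_nonneg (s := Icc 1 (n - r))
      (fun k hk => ?_) fun k _ _ => mul_nonneg (by positivity)
        (sum_nonneg fun _ _ => sum_nonneg fun _ _ => sq_nonneg _))
    · refine sum_congr rfl fun k hk => ?_
      congr 1
      refine sum_congr rfl fun m _ => ?_
      simp only [dotProduct, Pi.sub_apply]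
      refine sum_congr rfl fun i _ => ?_
      rw [← V0m_eq, ← V0m_eq]
      have hkn : k ≤ n := by rw [mem_Icc] at hk; omega
      have e1 := mart_eq hV hkn (m + δ k)
      have e2 := mart_eq hV hkn m
      rw [e1, e2]
      ring
    · rw [mem_Icc] at hk
      rw [mem_range]
      omega
  have h4 : ∀ k ∈ Icc 1 (n - r), ∀ m ∈ W k,
      H483.mT l K k (ck o x1 x3 k - δ k - m) (V k m) ⬝ᵥ
        H483.mT l K k (ck o x1 x3 k - δ k - m) (V k m) ≤
      2 * (H483.mT l K k (ck o x1 x3 k - δ k - m) (V k (m + δ k)) ⬝ᵥ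
        H483.mT l K k (ck o x1 x3 k - δ k - m) (V k (m + δ k))) +
      2 * ((V k (m + δ k) - V k m) ⬝ᵥ (V k (m + δ k) - V k m)) := by
    intro k hk m _
    rw [mem_Icc] at hk
    obtain ⟨j, rfl⟩ : ∃ j, k = j + 1 := ⟨k - 1, by omega⟩
    set c := ck o x1 x3 (j + 1) - δ (j + 1) - m
    set a := V (j + 1) (m + δ (j + 1))
    set b := V (j + 1) m
    have h5 := H483.mT_le h (by omega : j < n) c (a - b)
    have e : H483.mT l K (j + 1) c (a - b) =
        H483.mT l K (j + 1) c a - H483.mT l K (j + 1) c b := H483.mT_sub _ _ _ _ _ _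
    rw [e] at h5
    set p := H483.mT l K (j + 1) c a
    set q := H483.mT l K (j + 1) c b
    have h6 := H483.dot_nonneg (2 • p - q)
    have h6' : 0 ≤ ((2 : ℝ) • p - q) ⬝ᵥ ((2 : ℝ) • p - q) := H483.dot_nonneg _
    simp only [sub_dotProduct, dotProduct_sub, smul_dotProduct, dotProduct_smul,
      smul_eq_mul] at h6' h5 ⊢
    rw [dotProduct_comm q p] at h6' h5
    linarith
  have h5 : ∑ k ∈ Icc 1 (n - r), 2 ^ k * ∑ m ∈ W k,
      H483.mT l K k (ck o x1 x3 k - δ k - m) (V k m) ⬝ᵥ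
        H483.mT l K k (ck o x1 x3 k - δ k - m) (V k m) ≤
      2 * (∑ k ∈ Icc 1 (n - r), 2 ^ k * ∑ m ∈ W k,
      H483.mT l K k (ck o x1 x3 k - δ k - m) (V k (m + δ k)) ⬝ᵥ
        H483.mT l K k (ck o x1 x3 k - δ k - m) (V k (m + δ k))) +
      2 * ∑ k ∈ Icc 1 (n - r), 2 ^ k * ∑ m ∈ W k,
      (V k (m + δ k) - V k m) ⬝ᵥ (V k (m + δ k) - V k m) := by
    rw [mul_sum, mul_sum, ← sum_add_distrib]
    refine sum_le_sum fun k hk => ?_
    refine (mul_le_mul_of_nonneg_left (sum_le_sum fun m hm => h4 k hk m hm)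
      (by positivity)).trans (le_of_eq ?_)
    rw [sum_add_distrib, ← mul_sum, ← mul_sum]
    ring
  refine h5.trans ?_
  have h6 : 2 * (1408 * E) + 2 * ((6 * (r : ℝ) ^ 2 + 1920) * E) ≤
      10000 * (1 + (r : ℝ)) ^ 2 * E := by
    have hr0 : (0 : ℝ) ≤ r := Nat.cast_nonneg r
    have : 2 * 1408 + 2 * (6 * (r : ℝ) ^ 2 + 1920) ≤ 10000 * (1 + (r : ℝ)) ^ 2 := by nlinarith
    have := mul_le_mul_of_nonneg_right this hE0
    linarith
  linarith

end

end Vale.Agent.P141.H210
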